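import Vale.Agent.P237.All.Middle.Reach

/-!
P237, every dimension, middle regime: the caps on `w = r⁻ᵖ` with the sharper tails, keeping the
power `p / (p + 1)` of `TailCap`.
-/

noncomputable section

open Real Set MeasureTheory

namespace Vale.Agent.P237.All.Transport.Middle.Low

/-- A cap on `r ^ -(p + 1)` gives a cap on `r ^ -p`, with the gain of the power. -/
theorem pow_cap (p : ℕ) {r C Cn l0 e0 : ℝ} (hr : 0 < r) (h : -(((p : ℝ) + 1) * log r) ≤ log C)
    (hC : 0 < C) (hCn : C ≤ Cn) (he0 : 0 ≤ e0) (he1 : e0 ≤ 1 / ((p : ℝ) + 1))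
    (hl0 : 0 ≤ l0) (hl1 : exp l0 ≤ Cn) : (r ^ p)⁻¹ ≤ Cn / (1 + e0 * l0) := by
  have hCn0 : 0 < Cn := by linarith
  have hl : l0 ≤ log Cn := (Real.le_log_iff_exp_le hCn0).2 hl1
  have hp : (0 : ℝ) ≤ p := Nat.cast_nonneg p
  have h1 : -(((p : ℝ) + 1) * log r) ≤ log Cn := h.trans (Real.log_le_log hC hCn)
  have h2 : -((p : ℝ) * log r) ≤ log Cn - e0 * l0 := by
    have e : -((p : ℝ) * log r) = (p : ℝ) / ((p : ℝ) + 1) * -(((p : ℝ) + 1) * log r) := by field_simp
    have e' : (p : ℝ) / ((p : ℝ) + 1) * log Cn = log Cn - 1 / ((p : ℝ) + 1) * log Cn := by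
      field_simp; ring
    have := mul_le_mul_of_nonneg_left h1 (show 0 ≤ (p : ℝ) / ((p : ℝ) + 1) by positivity)
    have := mul_le_mul he1 hl hl0 (by positivity)
    linarith only [e, e', this, mul_le_mul_of_nonneg_left h1 (show 0 ≤ (p : ℝ) / ((p : ℝ) + 1) by positivity)]
  have h3 : log (r ^ p)⁻¹ ≤ log Cn - e0 * l0 := by rwa [Real.log_inv, Real.log_pow]
  refine ((Real.log_le_iff_le_exp (by positivity)).1 h3).trans ?_
  rw [Real.exp_sub, Real.exp_log hCn0]
  exact div_le_div_of_nonneg_left hCn0.le (by positivity) (by linarith [Real.add_one_le_exp (e0 * l0)])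

/-- The cap at `y` itself. -/
def capY (p : ℕ) (y lam : ℝ) : ℝ :=
  lam * (1 + (lam ^ p - 1) * (mass p semi 1 * √((p : ℝ) + 2)) * mills2 (√((p : ℝ) + 2) * y) /
    semi y ^ (p + 2))

theorem capY_pos (p : ℕ) {y lam : ℝ} (hy : y ∈ Ioo (0 : ℝ) 1) (hlam : 1 ≤ lam) : 0 < capY p y lam := by
  have hs := semi_pos (t := y) ⟨by linarith [hy.1], hy.2⟩
  have hε : 0 ≤ lam ^ p - 1 := sub_nonneg.2 (one_le_pow₀ hlam)
  have hP := mass_one_pos isProfile_semi p
  have hA : 0 < √((p : ℝ) + 2) := Real.sqrt_pos.2 (by positivity)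
  have hM := mills2_pos (mul_nonneg hA.le hy.1.le)
  unfold capY
  positivity

/-- `TailCap` at `u = y`. -/
theorem capY_log (p : ℕ) {y r lam : ℝ} (hy : y ∈ Ioo (0 : ℝ) 1) (hr : 0 < r) (hlam : 1 ≤ lam)
    (hcap : TailCap p y r lam) : -(((p : ℝ) + 1) * log r) ≤ log (capY p y lam) := by
  have hs := semi_pos (t := y) ⟨by linarith [hy.1], hy.2⟩
  have hP := mass_one_pos isProfile_semi p
  have hlp : 1 ≤ lam ^ p := one_le_pow₀ hlam
  have hsA : 0 < √((p : ℝ) + 2) := Real.sqrt_pos.2 (by positivity)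
  have hM := mills2_pos (mul_nonneg hsA.le hy.1.le)
  have h0 : 0 ≤ mass p semi y := intervalIntegral.integral_nonneg hy.1.le fun v _ =>
    pow_nonneg (Real.sqrt_nonneg _) _
  have h := hcap y ⟨hy.1.le, hy.2⟩ (le_mul_of_one_le_left h0 hlp)
  have hV := tail_ge3 p (Ioo_subset_Icc_self hy)
  set T := mass p semi 1 - mass p semi y with hT
  have hT0 : 0 < T := lt_of_lt_of_le (by positivity) hV
  have e : lam ^ p * mass p semi 1 - mass p semi y = (lam ^ p - 1) * mass p semi 1 + T := by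
    rw [hT]; ring
  rw [e] at h
  have hlam0 : 0 < lam := by linarith
  have hR : (r ^ (p + 1))⁻¹ ≤ capY p y lam := by
    rw [inv_le_iff_one_le_mul₀ (by positivity)]
    have h1 : 1 ≤ lam * (1 + (lam ^ p - 1) * mass p semi 1 / T) * r ^ (p + 1) := by
      have e2 : lam * (1 + (lam ^ p - 1) * mass p semi 1 / T) * r ^ (p + 1) =
          (lam * semi y * r) ^ (p + 1) * ((lam ^ p - 1) * mass p semi 1 + T) /
            (semi y ^ (p + 1) * (lam ^ p * T)) := by
        rw [mul_pow, mul_pow]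
        field_simp
        ring
      rw [e2, le_div_iff₀ (by positivity), one_mul]
      exact h
    refine h1.trans (mul_le_mul_of_nonneg_right (mul_le_mul_of_nonneg_left (add_le_add_right ?_ 1)
      hlam0.le) (pow_nonneg hr.le _))
    refine (div_le_div_of_nonneg_left (mul_nonneg (sub_nonneg.2 hlp) hP.le) (by positivity) hV).trans
      (le_of_eq ?_)
    rw [div_div_eq_mul_div]
    ring
  have hl := Real.log_le_log (by positivity) hR
  rw [Real.log_inv, Real.log_pow] at hl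
  push_cast at hl
  exact hl

/-- The cap from a point below. -/
def capBelow (p : ℕ) (u y lam : ℝ) : ℝ :=
  lam * mills2 (√((p : ℝ) + 2) * y) *
    ((lam ^ p - 1) * (mass p semi 1 * √((p : ℝ) + 2)) / semi u ^ (p + 1) + semi u / millsLow p u) /
      semi y

theorem capBelow_pos (p : ℕ) {u y lam : ℝ} (hu : 0 < u) (hy : y ∈ Ioo (0 : ℝ) 1) (huy : u ≤ y)
    (hlam : 1 ≤ lam) : 0 < capBelow p u y lam := by
  have hu1 := huy.trans_lt hy.2
  have hs := semi_pos (t := u) ⟨by linarith, hu1⟩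
  have hy' := semi_pos (t := y) ⟨by linarith [hy.1], hy.2⟩
  have hε : 0 ≤ lam ^ p - 1 := sub_nonneg.2 (one_le_pow₀ hlam)
  have hP := mass_one_pos isProfile_semi p
  have hA : 0 < √((p : ℝ) + 2) := Real.sqrt_pos.2 (by positivity)
  have hM := mills2_pos (mul_nonneg hA.le hy.1.le)
  have hL := millsLow_pos p (u := u) ⟨hu.le, hu1⟩
  unfold capBelow
  positivity

/-- `TailCap` at a point below `y`. -/
theorem capBelow_log {p : ℕ} (hp : 29 ≤ p) {u y r lam : ℝ} (hy : y ∈ Ioo (0 : ℝ) 1) (hu : 0 < u)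
    (huy : u ≤ y) (hr : 0 < r) (hlam : 1 ≤ lam) (hcap : TailCap p y r lam) :
    -(((p : ℝ) + 1) * log r) ≤ log (capBelow p u y lam) := by
  have hu1 : u < 1 := huy.trans_lt hy.2
  have hs := semi_pos (t := u) ⟨by linarith, hu1⟩
  have hy' := semi_pos (t := y) ⟨by linarith [hy.1], hy.2⟩
  have hP := mass_one_pos isProfile_semi p
  have hlp : 1 ≤ lam ^ p := one_le_pow₀ hlam
  have hsA : 0 < √((p : ℝ) + 2) := Real.sqrt_pos.2 (by positivity)
  have hM := mills2_pos (mul_nonneg hsA.le hy.1.le)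
  have hL := millsLow_pos p (u := u) ⟨hu.le, hu1⟩
  have hmass : mass p semi u ≤ lam ^ p * mass p semi y := by
    have h0 : 0 ≤ mass p semi y := intervalIntegral.integral_nonneg hy.1.le fun v _ =>
      pow_nonneg (Real.sqrt_nonneg _) _
    exact le_trans ((semi_mass_strictMonoOn p).monotoneOn ⟨by linarith, hu1.le⟩
      ⟨by linarith [hy.1], hy.2.le⟩ huy) (le_mul_of_one_le_left h0 hlp)
  have h := hcap u ⟨hu.le, hu1⟩ hmass
  have hV := tail_ge3 p (Ioo_subset_Icc_self hy)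
  have hVu := tail_le2 hp (y := u) ⟨hu.le, hu1⟩
  set V := mass p semi 1 - mass p semi y
  have h3 : semi u ^ (p + 1) *
      (lam ^ p * (semi y ^ (p + 2) / (√((p : ℝ) + 2) * mills2 (√((p : ℝ) + 2) * y)))) ≤
      (lam * semi y * r) ^ (p + 1) *
        ((lam ^ p - 1) * mass p semi 1 + semi u ^ (p + 2) / (√((p : ℝ) + 2) * millsLow p u)) := by
    refine le_trans (mul_le_mul_of_nonneg_left (mul_le_mul_of_nonneg_left hV (by positivity))
      (pow_nonneg hs.le _)) (h.trans (mul_le_mul_of_nonneg_left ?_ (by positivity)))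
    linarith
  have hR : (r ^ (p + 1))⁻¹ ≤ capBelow p u y lam := by
    rw [inv_le_iff_one_le_mul₀ (by positivity)]
    have e : capBelow p u y lam * r ^ (p + 1) = (lam * semi y * r) ^ (p + 1) *
        ((lam ^ p - 1) * mass p semi 1 + semi u ^ (p + 2) / (√((p : ℝ) + 2) * millsLow p u)) /
        (semi u ^ (p + 1) *
          (lam ^ p * (semi y ^ (p + 2) / (√((p : ℝ) + 2) * mills2 (√((p : ℝ) + 2) * y))))) := by
      rw [capBelow, mul_pow, mul_pow]
      field_simp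
      ring
    rw [e, le_div_iff₀ (by positivity), one_mul]
    exact h3
  have hl := Real.log_le_log (by positivity) hR
  rw [Real.log_inv, Real.log_pow] at hl
  push_cast at hl
  exact hl

theorem mills2_mono {a b : ℝ} (ha : 0 ≤ a) (hab : a ≤ b) : mills2 a ≤ mills2 b := by
  have hb : 0 ≤ b := ha.trans hab
  have hDa : 0 < a ^ 2 + 11 / 3 * a + 133 / 25 := by positivity
  have hDb : 0 < b ^ 2 + 11 / 3 * b + 133 / 25 := by positivity
  have e : mills2 b - mills2 a = (b - a) *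
      ((a ^ 2 + 11 / 3 * a + 133 / 25) * (b ^ 2 + 11 / 3 * b + 133 / 25) +
        (133 / 25 - 187 / 12 - 17 / 4 * (a + b) - a * b)) /
      ((a ^ 2 + 11 / 3 * a + 133 / 25) * (b ^ 2 + 11 / 3 * b + 133 / 25)) := by
    simp only [mills2]; field_simp; ring
  rw [← sub_nonneg, e]
  refine div_nonneg (mul_nonneg (sub_nonneg.2 hab) ?_) (mul_pos hDa hDb).le
  nlinarith only [mul_nonneg ha hb, ha, hb, mul_nonneg (mul_nonneg ha ha) hb, mul_nonneg (mul_nonneg hb hb) ha,
    mul_nonneg (mul_nonneg ha ha) (mul_nonneg hb hb), sq_nonneg a, sq_nonneg b]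

/-- `Reach` bounds `w semi y` through the sharper tail. -/
theorem reach_cap (p : ℕ) {y r Qm z a0 eA Gn l0 e0 : ℝ} (hy : y ∈ Ioo (0 : ℝ) 1) (hr : 0 < r)
    (h : Reach p y r) (hQ : mass p semi 1 * √((p : ℝ) + 2) ≤ Qm) (hz0 : 0 ≤ z)
    (hz : semi y ^ (p + 2) / (Qm * mills2 (√((p : ℝ) + 2) * y)) ≤ 1 - z)
    (ha0 : 0 ≤ a0) (ha : a0 ≤ 1 / ((p : ℝ) + 2))
    (heA : exp ((p : ℝ) / (2 * ((p : ℝ) + 2))) ≤ eA)
    (hG : Qm * mills2 (√((p : ℝ) + 2) * y) ≤ Gn) (hGn1 : 1 ≤ Gn)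
    (he0 : 0 ≤ e0) (he1 : e0 ≤ 1 / ((p : ℝ) + 1)) (hl0 : 0 ≤ l0) (hl1 : exp l0 ≤ Gn) :
    (r ^ p)⁻¹ * semi y ≤
      eA * exp (-((p : ℝ) / ((p : ℝ) + 2) * (z + z ^ 2 * a0 / 2))) * (Gn / (1 + e0 * l0)) := by
  have hs := semi_pos (t := y) ⟨by linarith [hy.1], hy.2⟩
  have hP := mass_one_pos isProfile_semi p
  have hsA : 0 < √((p : ℝ) + 2) := Real.sqrt_pos.2 (by positivity)
  have hM := mills2_pos (mul_nonneg hsA.le hy.1.le)
  have hQ0 : 0 < Qm := lt_of_lt_of_le (by positivity) hQ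
  set v0 := semi y ^ (p + 2) / (Qm * mills2 (√((p : ℝ) + 2) * y)) with hv0d
  have hv0 : 0 < v0 := by positivity
  have hvv : v0 ≤ tailFrac p y := by
    rw [tailFrac, le_div_iff₀ hP]
    refine le_trans ?_ (tail_ge3 p (Ioo_subset_Icc_self hy))
    rw [hv0d, div_mul_eq_mul_div, div_le_div_iff₀ (by positivity) (by positivity)]
    have := mul_le_mul_of_nonneg_left hQ (show 0 ≤ semi y ^ (p + 2) * mills2 (√((p : ℝ) + 2) * y) by positivity)
    linarith
  have hl := reach_log_le2 p hy hr h hv0 hvv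
  have hp : (0 : ℝ) ≤ p := Nat.cast_nonneg p
  set G := Qm * mills2 (√((p : ℝ) + 2) * y) with hGd
  have hG0 : 0 < G := by positivity

  have hlv : log v0 = ((p : ℝ) + 2) * log (semi y) - log G := by
    rw [hv0d, log_div (by positivity) hG0.ne', log_pow]; push_cast; ring
  have hb : (p : ℝ) / ((p : ℝ) + 2) * (z + z ^ 2 * a0 / 2) ≤
      (p : ℝ) * ((1 - v0) / ((p : ℝ) + 2) + ((1 - v0) / ((p : ℝ) + 2)) ^ 2 / 2) := by
    have h1 : z ≤ 1 - v0 := by linarith only [hz]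
    have h2 : z ^ 2 * a0 ≤ (1 - v0) ^ 2 * (1 / ((p : ℝ) + 2)) :=
      mul_le_mul (pow_le_pow_left₀ hz0 h1 2) ha ha0 (sq_nonneg _)
    have h3 := mul_le_mul_of_nonneg_left (show z + z ^ 2 * a0 / 2 ≤
      (1 - v0) + (1 - v0) ^ 2 * (1 / ((p : ℝ) + 2)) / 2 by linarith only [h1, h2])
      (show 0 ≤ (p : ℝ) / ((p : ℝ) + 2) by positivity)
    refine h3.trans (le_of_eq ?_)
    field_simp
  have hls : log (semi y) ≤ 0 := Real.log_nonpos hs.le (Real.sqrt_le_one.2 (by linarith [sq_nonneg y]))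
  have hlg : (p : ℝ) / ((p : ℝ) + 1) * log G ≤ log Gn - e0 * l0 := by
    have hl' : l0 ≤ log Gn := (Real.le_log_iff_exp_le (by linarith)).2 hl1
    have h1 := mul_le_mul_of_nonneg_left (Real.log_le_log hG0 hG)
      (show 0 ≤ (p : ℝ) / ((p : ℝ) + 1) by positivity)
    have h2 := mul_le_mul he1 hl' hl0 (by positivity)
    have e' : (p : ℝ) / ((p : ℝ) + 1) * log Gn = log Gn - 1 / ((p : ℝ) + 1) * log Gn := by
      field_simp; ring
    linarith only [h1, h2, e']
  have key : log ((r ^ p)⁻¹ * semi y) ≤ (p : ℝ) / (2 * ((p : ℝ) + 2)) +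
      -((p : ℝ) / ((p : ℝ) + 2) * (z + z ^ 2 * a0 / 2)) + (log Gn - e0 * l0) := by
    rw [log_mul (by positivity) hs.ne', Real.log_inv, Real.log_pow]
    rw [hlv] at hl
    have e : (p : ℝ) * (log (semi y) + 1 / (2 * ((p : ℝ) + 2)) -
        (((p : ℝ) + 2) * log (semi y) - log G) / ((p : ℝ) + 1) - (1 - v0) / ((p : ℝ) + 2) -
          ((1 - v0) / ((p : ℝ) + 2)) ^ 2 / 2) + log (semi y) =
        1 / ((p : ℝ) + 1) * log (semi y) + (p : ℝ) / (2 * ((p : ℝ) + 2)) +
          (p : ℝ) / ((p : ℝ) + 1) * log G -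
          (p : ℝ) * ((1 - v0) / ((p : ℝ) + 2) + ((1 - v0) / ((p : ℝ) + 2)) ^ 2 / 2) := by
      field_simp; ring
    linarith only [hl, e, hb, hlg, mul_nonpos_of_nonneg_of_nonpos
      (show 0 ≤ 1 / ((p : ℝ) + 1) by positivity) hls]
  refine ((Real.log_le_iff_le_exp (by positivity)).1 key).trans ?_
  rw [Real.exp_add, Real.exp_add, Real.exp_sub, Real.exp_log (by linarith : 0 < Gn)]
  refine mul_le_mul (mul_le_mul_of_nonneg_right heA (exp_pos _).le) ?_ (by positivity)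
    (mul_nonneg ((exp_pos _).le.trans heA) (exp_pos _).le)
  exact div_le_div_of_nonneg_left (by linarith) (by positivity) (by linarith [Real.add_one_le_exp (e0 * l0)])

end Vale.Agent.P237.All.Transport.Middle.Low
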