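import Vale.Agent.P237.All.Middle.Low.Check
import Vale.Agent.P237.All.Middle.Low.Cap

/-!
P237, every dimension, middle regime in dimension `45..130`: the tests of the caps on `w` and of the
gain of the band mean what they say.
-/

noncomputable section

open Real Set

namespace Vale.Agent.P237.All.Transport.Middle.Low

open Mid (Sg AF U U_pos U_ne Pt epsP eps_pos)
open Upper (scaled_mass_mem)

/-- The excess of `lam ^ p` over one, over the reals. -/
def enR (K th : ℕ) : ℝ := rn K * rn th * (1 - rn K * rn th * (1 / 2))⁻¹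

/-- The mass, scaled, over the reals. -/
def mass2R (th : ℕ) : ℝ := rn 21027221 * (1 - epsR th * rn 4194304)⁻¹

/-- What a valid row gives at a point. -/
structure RowFacts (K : ℕ) (w : Row) (p : ℕ) (lam : ℝ) : Prop where
  hlam : lam ≤ rn w.lam
  he : lam ^ p - 1 ≤ enR K w.th
  hQ : mass p semi 1 * √((p : ℝ) + 2) ≤ mass2R w.th
  hA : exp ((p : ℝ) / (2 * ((p : ℝ) + 2))) ≤ rn w.eA
  he0 : rn w.tl ≤ 1 / ((p : ℝ) + 1)
  en : (enUp K w.th).Has 0 0 (enR K w.th)
  mass : (mass2 w.th).Has 0 0 (mass2R w.th)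

variable {p : ℕ} {k y t r lam : ℝ} {K : ℕ} {w : Row} {xl xh : ℕ}

theorem rowOk_sound (h : rowOk K w = true) (hpt : Pt p k y t r lam) (hk : 0 ≤ k) (hkK : k ≤ rn K)
    (ht0 : rn w.tl ≤ tP p) (ht1 : tP p ≤ rn w.th) : RowFacts K w p lam := by
  simp only [rowOk, Bool.and_eq_true] at h
  obtain ⟨⟨⟨⟨⟨⟨⟨-, a1⟩, a2⟩, a3⟩, a4⟩, a5⟩, a6⟩, a7⟩ := h
  have h1th := pos_of_ps a1 (has_one.sub (has_cst w.th))
  have hKt := (has_cst (S := 0) (T := 0) K).mul (has_cst w.th) z0 z0
  have hd := pos_of_ps a2 (has_one.sub (hKt.mul has_half z0 z0))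
  have heps : (epsUp w.th).Has 0 0 (epsR w.th) :=
    (has_cst w.th).mul ((has_one.sub (has_cst w.th)).inv z0 z0 (ps_posPart a1)) z0 z0
  have h3 := le_of_nn a3 ((has_cst w.zl).sub ((has_cst K).mul (heps.mul heps z0 z0) z0 z0))
  have h5 := le_of_nn a5 (((has_cst w.zA).add (has_cst w.tl)).sub has_half)
  have h7 := heps.mul (has_cst 4194304) z0 z0
  have h7' := pos_of_ps a7 (has_one.sub h7)
  have hu := tP_pos p
  have hp0 : (0 : ℝ) ≤ p := Nat.cast_nonneg p
  have eu : tP p = 1 / ((p : ℝ) + 2) := rfl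
  have he : epsP p ≤ epsR w.th := by
    have e : epsP p = tP p / (1 - tP p) := by
      have : (p : ℝ) + 2 - 1 = p + 1 := by ring
      simp only [epsP, tP]; field_simp; rw [this, div_self (by positivity)]
    rw [e, epsR, ← div_eq_mul_inv]
    exact div_le_div₀ (rn_nonneg _) ht1 h1th (by linarith)
  have hε := eps_pos p
  refine ⟨?_, ?_, ?_, ?_, ?_, hKt.mul ((has_one.sub (hKt.mul has_half z0 z0)).inv z0 z0 (ps_posPart a2)) z0 z0,
    (has_cst _).mul ((has_one.sub h7).inv z0 z0 (ps_posPart a7)) z0 z0⟩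
  · have hl0 : 0 < lam := lt_of_lt_of_le one_pos hpt.hlam
    have hl := (Real.log_le_iff_le_exp (pow_pos hl0 _)).2 hpt.hpow
    rw [Real.log_pow] at hl
    push_cast at hl
    have hl2 : log lam ≤ k * (epsP p * epsP p) := by
      have e : k * (epsP p * epsP p) = k / ((p : ℝ) + 1) / ((p : ℝ) + 1) := by
        simp only [epsP]; field_simp
      rw [e, le_div_iff₀ (by positivity)]; linarith
    refine ((Real.log_le_iff_le_exp hl0).1 hl2).trans (le_trans (exp_le_exp.2 ?_) (expOk_sound a4))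
    refine le_trans ?_ (show rn K * (epsR w.th * epsR w.th) ≤ rn w.zl by linarith only [h3])
    exact mul_le_mul hkK (mul_le_mul he he hε.le (hε.le.trans he)) (by positivity) (rn_nonneg K)
  · have hkt : k / ((p : ℝ) + 2) ≤ rn K * rn w.th := by
      rw [show k / ((p : ℝ) + 2) = k * tP p by rw [eu]; ring]
      exact mul_le_mul hkK ht1 hu.le (rn_nonneg K)
    refine (Middle.excess_lam_le p hpt.hlam hk (by linarith only [hkt, hd]) hpt.hpow).trans ?_
    rw [enR, ← div_eq_mul_inv]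
    exact div_le_div₀ (mul_nonneg (rn_nonneg K) (rn_nonneg _)) hkt hd (by linarith only [hkt])
  · obtain ⟨hlo, hhi⟩ := scaled_mass_mem p
    have h0 : 0 < mass p semi 1 * √((p : ℝ) + 2) := lt_of_lt_of_le (by norm_num) hlo
    have h2 := (Real.log_le_iff_le_exp h0).1 hhi
    rw [Real.exp_add, Real.exp_log (by norm_num)] at h2
    refine h2.trans (mul_le_mul (by norm_num [rn, U]) ?_ (exp_pos _).le (rn_nonneg _))
    have e4 : rn 4194304 = 1 / 4 := by norm_num [rn, U]
    have e : 1 / (4 * ((p : ℝ) + 1)) = epsP p / 4 := by simp only [epsP]; field_simp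
    rw [e4] at h7' ⊢
    rw [e]
    refine le_trans (exp_le_exp.2 (show epsP p / 4 ≤ epsR w.th * (1 / 4) by linarith only [he])) ?_
    rw [← one_div]
    exact exp_bound_div_one_sub_of_interval (by linarith only [he, hε]) (by linarith only [h7'])
  · refine le_trans (exp_le_exp.2 ?_) (expOk_sound a6)
    have e : (p : ℝ) / (2 * ((p : ℝ) + 2)) = 1 / 2 - tP p := by rw [eu]; field_simp; ring
    linarith only [e, h5, ht0]
  · exact ht0.trans (one_div_le_one_div_of_le (by positivity) (by linarith))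

/-- The bound on `mills2 x` from above. -/
def mills2UpR (x : ℕ) : ℝ :=
  rn x + (rn x + rn 71303168) * (rn x * rn x + rn 61516458 * rn x + rn 89254789)⁻¹

/-- The bound on `mills2 x` from below. -/
def mills2DnR (x : ℕ) : ℝ :=
  rn x + (rn x + rn 71303168) * (rn x * rn x + rn 61516459 * rn x + rn 89254790)⁻¹

theorem has_mills2Up {x : ℕ} (h : mills2UpOk x = true) : (mills2Up x).Has 0 0 (mills2UpR x) :=
  (has_cst x).add (((has_cst x).add (has_cst _)).mul
    (((((has_cst x).mul (has_cst x) z0 z0).add ((has_cst _).mul (has_cst x) z0 z0)).add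
      (has_cst _)).inv z0 z0 (ps_posPart h)) z0 z0)

theorem has_mills2Dn {x : ℕ} (h : mills2DnOk x = true) : (mills2Dn x).Has 0 0 (mills2DnR x) :=
  (has_cst x).add (((has_cst x).add (has_cst _)).mul
    (((((has_cst x).mul (has_cst x) z0 z0).add ((has_cst _).mul (has_cst x) z0 z0)).add
      (has_cst _)).inv z0 z0 (ps_posPart h)) z0 z0)

theorem mills2_le (x : ℕ) : mills2 (rn x) ≤ mills2UpR x := by
  have hx := rn_nonneg x
  rw [mills2, mills2UpR, ← div_eq_mul_inv]
  refine add_le_add le_rfl (div_le_div₀ (add_nonneg hx (rn_nonneg _))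
    (add_le_add le_rfl (by norm_num [rn, U])) ?_ ?_)
  · have : 0 < rn 89254789 := by norm_num [rn, U]
    have := mul_nonneg hx hx
    have := mul_nonneg (rn_nonneg 61516458) hx
    linarith
  · have h1 : rn 61516458 ≤ 11 / 3 := by norm_num [rn, U]
    have h2 : rn 89254789 ≤ 133 / 25 := by norm_num [rn, U]
    nlinarith only [hx, h1, h2]

theorem mills2_ge (x : ℕ) : mills2DnR x ≤ mills2 (rn x) := by
  have hx := rn_nonneg x
  rw [mills2, mills2DnR, ← div_eq_mul_inv]
  refine add_le_add le_rfl (div_le_div₀ (by positivity)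
    (add_le_add le_rfl (by norm_num [rn, U])) (by positivity) ?_)
  have h1 : 11 / 3 ≤ rn 61516459 := by norm_num [rn, U]
  have h2 : 133 / 25 ≤ rn 89254790 := by norm_num [rn, U]
  nlinarith only [hx, h1, h2]

theorem sqrt_xP (p : ℕ) {y : ℝ} (hy : 0 ≤ y) : √((p : ℝ) + 2) * y = √(xP p y) :=
  Mid.sqrt_mul_y p hy

theorem mills2_at (hy : 0 < y) {x1 : ℕ} (hx : xP p y ≤ rn x1 ^ 2) :
    mills2 (√((p : ℝ) + 2) * y) ≤ mills2UpR x1 := by
  refine (mills2_mono (by positivity) ?_).trans (mills2_le x1)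
  rw [sqrt_xP p hy.le, Real.sqrt_le_left (rn_nonneg x1)]
  exact hx

theorem powOk_sound {tl W Cn l0 : ℕ} {C : ℝ} (h : powOk tl W Cn l0 = true) (hr : 0 < r)
    (hl : -(((p : ℝ) + 1) * log r) ≤ log C) (hC : 0 < C) (hCn : C ≤ rn Cn)
    (he : rn tl ≤ 1 / ((p : ℝ) + 1)) : (r ^ p)⁻¹ ≤ rn W := by
  simp only [powOk, Bool.and_eq_true] at h
  have h2 := le_of_nn h.2 (((has_cst W).mul (has_one.add ((has_cst tl).mul (has_cst l0) z0 z0)) z0 z0).sub
    (has_cst Cn))
  refine (pow_cap p hr hl hC hCn (rn_nonneg tl) he (rn_nonneg l0) (expOk_sound h.1)).trans ?_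
  rw [div_le_iff₀ (by have := mul_nonneg (rn_nonneg tl) (rn_nonneg l0); linarith)]
  linarith

theorem semi_le_one (y : ℝ) : semi y ≤ 1 := Real.sqrt_le_one.2 (by linarith [sq_nonneg y])

theorem reachOk_sound {x0 x1 Cn l0 wd : ℕ} (h : reachOk w x0 x1 Cn l0 wd = true)
    (hpt : Pt p k y t r lam) (hw : RowFacts K w p lam) (ht0 : rn w.tl ≤ tP p) (ht1 : tP p ≤ rn w.th)
    (hx0 : rn x0 ^ 2 ≤ xP p y) (hx1 : xP p y ≤ rn x1 ^ 2) : (r ^ p)⁻¹ * semi y ≤ rn wd := by
  simp only [reachOk, AF.force_eq, Bool.and_eq_true] at h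
  obtain ⟨⟨⟨⟨⟨⟨⟨⟨a1, a2⟩, a3⟩, a4⟩, a5⟩, a6⟩, a7⟩, a8⟩, a9⟩ := h
  set e := rn x0 * rn x0 * (1 / 2) with hed
  set pe := 1 + e + e * e * (1 / 2) + e * e * e * rn 2796202 + e * e * (e * e) * rn 699050 with hpe
  set den := pe * mass2R w.th * mills2DnR x0 with hden
  set z := 1 - den⁻¹ with hz
  set b := (1 - 2 * rn w.th) * (z + z * z * rn w.tl * (1 / 2)) with hb
  set pb := 1 + b + b * b * (1 / 2) + b * b * b * rn 2796202 + b * b * (b * b) * rn 699050 with hpb
  have he := ((has_cst (S := 0) (T := 0) x0).mul (has_cst x0) z0 z0).mul has_half z0 z0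
  have he2 := he.mul he z0 z0
  have hpeH := (((has_one.add he).add (he2.mul has_half z0 z0)).add
    ((he2.mul he z0 z0).mul (has_cst 2796202) z0 z0)).add ((he2.mul he2 z0 z0).mul (has_cst 699050) z0 z0)
  have hdenH := (hpeH.mul hw.mass z0 z0).mul (has_mills2Dn a2) z0 z0
  have hzH := has_one.sub (hdenH.inv z0 z0 (ps_posPart a3))
  have h2th := has_scale (has_cst (S := 0) (T := 0) w.th) z0 z0 2
  push_cast at h2th
  have hbH := (has_one.sub h2th).mul (hzH.add (((hzH.mul hzH z0 z0).mul (has_cst w.tl) z0 z0).mul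
    has_half z0 z0)) z0 z0
  have hb2 := hbH.mul hbH z0 z0
  have hpbH := (((has_one.add hbH).add (hb2.mul has_half z0 z0)).add
    ((hb2.mul hbH z0 z0).mul (has_cst 2796202) z0 z0)).add ((hb2.mul hb2 z0 z0).mul (has_cst 699050) z0 z0)
  have h3 : 0 < den := pos_of_ps a3 hdenH
  have h4 : 0 ≤ z := le_of_nn a4 hzH
  have h5 : 0 ≤ b := le_of_nn a5 hbH
  have h6 := le_of_nn a6 ((has_cst Cn).sub (hw.mass.mul (has_mills2Up a1) z0 z0))
  have h7 := le_of_nn a7 ((has_cst Cn).sub has_one)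
  have h9 := le_of_nn a9 ((((has_cst wd).mul hpbH z0 z0).mul
    (has_one.add ((has_cst w.tl).mul (has_cst l0) z0 z0)) z0 z0).sub ((has_cst w.eA).mul (has_cst Cn) z0 z0))
  have hy0 := hpt.hy.1
  have hP := mass_one_pos isProfile_semi p
  have hsA : 0 < √((p : ℝ) + 2) := Real.sqrt_pos.2 (by positivity)
  have hQ0 : 0 < mass2R w.th := lt_of_lt_of_le (by positivity) hw.hQ
  have hM := mills2_pos (mul_nonneg hsA.le hy0.le)
  have hs := semi_pos (t := y) ⟨by linarith, hpt.hy.2⟩
  have hx0' : rn x0 ≤ √((p : ℝ) + 2) * y := sqrt_xP p hy0.le ▸ Real.le_sqrt_of_sq_le hx0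
  have he0 : 0 ≤ e := mul_nonneg (mul_self_nonneg _) (by norm_num)
  have hpe0 : 0 ≤ pe := by
    rw [hpe]; have := rn_nonneg 2796202; have := rn_nonneg 699050; positivity
  have hdn : 0 ≤ mills2DnR x0 := by
    rw [mills2DnR]
    have := rn_nonneg x0; have := rn_nonneg 71303168; have := rn_nonneg 61516459
    have := rn_nonneg 89254790
    positivity
  have h6' : rn 2796202 ≤ 1 / 6 := by norm_num [rn, U]
  have h24' : rn 699050 ≤ 1 / 24 := by norm_num [rn, U]
  have series : ∀ v : ℝ, 0 ≤ v →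
      1 + v + v * v * (1 / 2) + v * v * v * rn 2796202 + v * v * (v * v) * rn 699050 ≤ exp v := by
    intro v hv
    have h := Real.sum_le_exp_of_nonneg hv 5
    simp only [Finset.sum_range_succ, Finset.sum_range_zero, Nat.factorial] at h
    norm_num at h
    have := mul_le_mul_of_nonneg_left h6' (show 0 ≤ v * v * v by positivity)
    have := mul_le_mul_of_nonneg_left h24' (show 0 ≤ v * v * (v * v) by positivity)
    linarith
  have hv0 : semi y ^ (p + 2) / (mass2R w.th * mills2 (√((p : ℝ) + 2) * y)) ≤ 1 - z := by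
    have h1 : semi y ^ (p + 2) * pe ≤ 1 := by
      have hX : semi y ^ (p + 2) ≤ exp (-e) := by
        have hd : (0 : ℝ) < 1 - y ^ 2 := by nlinarith only [hy0, hpt.hy.2]
        refine (Real.log_le_iff_le_exp (pow_pos hs _)).1 ?_
        rw [Real.log_pow, show semi y = √(1 - y ^ 2) from rfl, Real.log_sqrt hd.le]
        push_cast
        have hl := Real.log_le_sub_one_of_pos hd
        have h2 := mul_le_mul_of_nonneg_left (show log (1 - y ^ 2) / 2 ≤ -(y ^ 2) / 2 by linarith only [hl])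
          (show (0 : ℝ) ≤ (p : ℝ) + 2 by positivity)
        have hx : rn x0 * rn x0 ≤ ((p : ℝ) + 2) * y ^ 2 := by rw [← sq]; exact hx0
        linarith only [h2, hx, hed]
      calc semi y ^ (p + 2) * pe ≤ exp (-e) * exp e :=
            mul_le_mul hX (series e he0) hpe0 (exp_pos _).le
        _ = 1 := by rw [← Real.exp_add, neg_add_cancel, exp_zero]
    rw [hz, sub_sub_cancel, ← one_div, div_le_div_iff₀ (by positivity) h3, one_mul, hden]
    have hD := (mills2_ge x0).trans (mills2_mono (rn_nonneg x0) hx0')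
    calc semi y ^ (p + 2) * (pe * mass2R w.th * mills2DnR x0)
        = semi y ^ (p + 2) * pe * (mass2R w.th * mills2DnR x0) := by ring
      _ ≤ 1 * (mass2R w.th * mills2 (√((p : ℝ) + 2) * y)) := by
          refine mul_le_mul h1 (mul_le_mul_of_nonneg_left hD hQ0.le) (mul_nonneg hQ0.le ?_) zero_le_one
          exact hdn
      _ = mass2R w.th * mills2 (√((p : ℝ) + 2) * y) := one_mul _
  have hG : mass2R w.th * mills2 (√((p : ℝ) + 2) * y) ≤ rn Cn :=
    (mul_le_mul_of_nonneg_left (mills2_at hy0 hx1) hQ0.le).trans (by linarith only [h6])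
  have hc := reach_cap p hpt.hy hpt.hr hpt.reach hw.hQ h4 hv0 (rn_nonneg w.tl) ht0 hw.hA hG
    (by linarith only [h7]) (rn_nonneg w.tl) hw.he0 (rn_nonneg l0) (expOk_sound a8)
  refine hc.trans ?_
  have hq : 1 - 2 * rn w.th ≤ (p : ℝ) / ((p : ℝ) + 2) := by
    have e : (p : ℝ) / ((p : ℝ) + 2) = 1 - 2 * tP p := by simp only [tP]; field_simp; ring
    linarith only [e, ht1]
  have hb' : b ≤ (p : ℝ) / ((p : ℝ) + 2) * (z + z ^ 2 * rn w.tl / 2) := by
    rw [hb, show z * z * rn w.tl * (1 / 2) = z ^ 2 * rn w.tl / 2 by ring]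
    have := rn_nonneg w.tl
    exact mul_le_mul_of_nonneg_right hq (by positivity)
  have hpb0 : 0 < pb := by rw [hpb]; have := rn_nonneg 2796202; have := rn_nonneg 699050; positivity
  have hex : exp (-((p : ℝ) / ((p : ℝ) + 2) * (z + z ^ 2 * rn w.tl / 2))) ≤ pb⁻¹ := by
    rw [Real.exp_neg]
    exact inv_anti₀ hpb0 ((series b h5).trans (exp_le_exp.2 hb'))
  have hl : 0 < 1 + rn w.tl * rn l0 := by have := rn_nonneg w.tl; have := rn_nonneg l0; positivity
  refine (mul_le_mul_of_nonneg_right (mul_le_mul_of_nonneg_left hex (rn_nonneg _))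
    (div_nonneg (rn_nonneg _) hl.le)).trans ?_
  rw [← div_eq_mul_inv, div_mul_div_comm, div_le_iff₀ (by positivity)]
  rw [hpb, hb, hz, hden, hpe, hed]
  linarith only [h9]

/-- What a test of a cap gives. -/
theorem capOk_sound {W : ℕ} {c : Cap} (hpt : Pt p k y t r lam) (hp : 29 ≤ p) (hw : RowFacts K w p lam)
    (ht0 : rn w.tl ≤ tP p) (ht1 : tP p ≤ rn w.th) (hxl : rn xl ≤ xP p y) (hxh : xP p y ≤ rn xh)
    (hc : capOk K w xl xh W c = true) : (r ^ p)⁻¹ ≤ rn W := by
  have hy0 := hpt.hy.1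
  have hs := semi_pos (t := y) ⟨by linarith, hpt.hy.2⟩
  have hP := mass_one_pos isProfile_semi p
  have hsA : 0 < √((p : ℝ) + 2) := Real.sqrt_pos.2 (by positivity)
  have hM := mills2_pos (mul_nonneg hsA.le hy0.le)
  have hlp : 0 ≤ lam ^ p - 1 := sub_nonneg.2 (one_le_pow₀ hpt.hlam)
  have hlam0 : 0 < lam := lt_of_lt_of_le one_pos hpt.hlam
  have hQ0 : 0 ≤ mass2R w.th := le_trans (by positivity) hw.hQ
  have he0 : 0 ≤ enR K w.th := hlp.trans hw.he
  have hX0 : 0 ≤ xP p y := by unfold xP; positivity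
  cases c with
  | self x1 z e Cn l0 =>
    simp only [capOk, AF.force_eq, Bool.and_eq_true] at hc
    obtain ⟨⟨⟨⟨⟨⟨a1, a2⟩, a3⟩, a4⟩, a5⟩, a6⟩, a7⟩ := hc
    have hd := has_one.sub ((has_cst (S := 0) (T := 0) xh).mul (has_cst w.th) z0 z0)
    have h1 := le_of_nn a1 (((has_cst x1).mul (has_cst x1) z0 z0).sub (has_cst xh))
    have h2 := pos_of_ps a2 hd
    have h3 := le_of_nn a3 (((has_scale (has_cst z) z0 z0 2).mul hd z0 z0).sub (has_cst xh))
    push_cast at h3
    have hx1 : xP p y ≤ rn x1 ^ 2 := hxh.trans (by linarith only [h1, sq (rn x1)])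
    have h6 := le_of_nn a6 ((has_cst Cn).sub ((has_cst w.lam).mul
      (has_one.add (((hw.en.mul hw.mass z0 z0).mul (has_mills2Up a5) z0 z0).mul (has_cst e) z0 z0)) z0 z0))
    refine powOk_sound a7 hpt.hr (capY_log p hpt.hy hpt.hr hpt.hlam hpt.cap) (capY_pos p hpt.hy hpt.hlam)
      (le_trans ?_ (sub_nonneg.1 h6)) hw.he0
    have he : (semi y ^ (p + 2))⁻¹ ≤ rn e := by
      refine (Middle.semi_pow_inv_le p hpt.hy hxh (show 1 / ((p : ℝ) + 2) ≤ rn w.th from ht1)
        (by linarith only [h2])).trans ((exp_le_exp.2 ?_).trans (expOk_sound a4))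
      rw [div_le_iff₀ (by linarith only [h2])]
      have : ((p : ℝ) + 2) * y ^ 2 ≤ rn xh := hxh
      linarith only [h3, this]
    have hm := mills2_at hy0 hx1
    unfold capY
    rw [div_eq_mul_inv]
    exact mul_le_mul hw.hlam (add_le_add le_rfl (mul_le_mul (mul_le_mul (mul_le_mul hw.he hw.hQ
      (by positivity) he0) hm hM.le (mul_nonneg he0 hQ0)) he (by positivity)
      (mul_nonneg (mul_nonneg he0 hQ0) (hM.le.trans hm)))) (by positivity) (rn_nonneg _)
  | shift xu x1 z e sy Cn l0 =>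
    simp only [capOk, AF.force_eq, Bool.and_eq_true] at hc
    obtain ⟨⟨⟨⟨⟨⟨⟨⟨⟨⟨⟨a1, a2⟩, a3⟩, a4⟩, a5⟩, a6⟩, a7⟩, a8⟩, a9⟩, a10⟩, a11⟩, a12⟩ := hc
    have hXu := (has_cst (S := 0) (T := 0) xu).mul (has_cst xu) z0 z0
    have hd := has_one.sub (hXu.mul (has_cst w.th) z0 z0)
    have hden : (lowDen xu).Has 0 0 (rn xu * rn xu + rn 52512687 * rn xu + rn 67444409) :=
      (hXu.add ((has_cst _).mul (has_cst xu) z0 z0)).add (has_cst _)
    have hlow : (lowDn xu w.th).Has 0 0 (rn xu + (1 - rn xu * rn xu * rn w.th) *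
        ((rn xu + rn 52512686) * (rn xu * rn xu + rn 52512687 * rn xu + rn 67444409)⁻¹)) :=
      (has_cst xu).add ((has_one.sub (hXu.mul (has_cst w.th) z0 z0)).mul
        (((has_cst xu).add (has_cst _)).mul (hden.inv z0 z0 (ps_posPart a4)) z0 z0) z0 z0)
    have h1 := le_of_nn a1 (((has_cst x1).mul (has_cst x1) z0 z0).sub (has_cst xh))
    have h2 := pos_of_ps a2 hd
    have h3 := pos_of_ps a3 (has_cst xu)
    have h5 := pos_of_ps a5 hlow
    have h6 := le_of_nn a6 ((has_cst xl).sub hXu)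
    have h7 := le_of_nn a7 (((has_scale (has_cst z) z0 z0 2).mul hd z0 z0).sub hXu)
    push_cast at h7
    have hx1 : xP p y ≤ rn x1 ^ 2 := hxh.trans (by linarith only [h1, sq (rn x1)])
    obtain ⟨-, hsy⟩ := semi_inv_le hpt.hy ht1 hx1 a10
    have h11 := le_of_nn a11 ((has_cst Cn).sub ((((has_cst w.lam).mul (has_mills2Up a9) z0 z0).mul
      (((hw.en.mul hw.mass z0 z0).mul (has_cst e) z0 z0).add
        ((has_one.sub ((hXu.mul (has_cst w.tl) z0 z0).mul has_half z0 z0)).mul
          (hlow.inv z0 z0 (ps_posPart a5)) z0 z0)) z0 z0).mul (has_cst sy) z0 z0))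
    have hA : (0 : ℝ) < (p : ℝ) + 2 := by positivity
    set u := rn xu / √((p : ℝ) + 2) with hu
    have hu0 : 0 < u := by positivity
    have hXu' : ((p : ℝ) + 2) * u ^ 2 = rn xu * rn xu := by
      rw [hu, div_pow, Real.sq_sqrt hA.le]; field_simp
    have hxu : √((p : ℝ) + 2) * u = rn xu := by rw [hu]; field_simp
    have huy : u ≤ y := by
      refine (pow_le_pow_iff_left₀ hu0.le hy0.le two_ne_zero).1 (le_of_mul_le_mul_left ?_ hA)
      rw [hXu']
      exact (show rn xu * rn xu ≤ rn xl by linarith only [h6]).trans hxl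
    have hu1 : u < 1 := huy.trans_lt hpt.hy.2
    refine powOk_sound a12 hpt.hr (capBelow_log hp hpt.hy hu0 huy hpt.hr hpt.hlam hpt.cap)
      (capBelow_pos p hu0 hpt.hy huy hpt.hlam) (le_trans ?_ (sub_nonneg.1 h11)) hw.he0
    have hus := semi_pos (t := u) ⟨by linarith, hu1⟩
    have he : (semi u ^ (p + 1))⁻¹ ≤ rn e := by
      refine le_trans ?_ ((Middle.semi_pow_inv_le p ⟨hu0, hu1⟩ hXu'.le
        (show 1 / ((p : ℝ) + 2) ≤ rn w.th from ht1) (by linarith only [h2])).trans
        ((exp_le_exp.2 ?_).trans (expOk_sound a8)))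
      · refine inv_anti₀ (pow_pos hus _) ?_
        rw [pow_succ _ (p + 1)]
        exact mul_le_of_le_one_right (pow_nonneg hus.le _) (semi_le_one u)
      · rw [hXu', div_le_iff₀ (by linarith only [h2])]
        linarith only [h7]
    have e1 : u ^ 2 = rn xu * rn xu * (1 / ((p : ℝ) + 2)) := by rw [← hXu']; field_simp
    have hsu : semi u ≤ 1 - rn xu * rn xu * rn w.tl * (1 / 2) := by
      have hle : rn xu * rn xu * rn w.tl ≤ u ^ 2 := by
        rw [e1]; exact mul_le_mul_of_nonneg_left ht0 (by positivity)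
      refine (Mid.sqrt_one_sub_le (mul_nonneg (by positivity) (rn_nonneg _)) hle ?_).trans
        (le_of_eq (by ring))
      nlinarith only [hu0, hu1]
    have hL : rn xu + (1 - rn xu * rn xu * rn w.th) *
        ((rn xu + rn 52512686) * (rn xu * rn xu + rn 52512687 * rn xu + rn 67444409)⁻¹) ≤
          millsLow p u := by
      rw [millsLow, hxu, ← div_eq_mul_inv, sq (rn xu)]
      refine add_le_add le_rfl (mul_le_mul ?_ ?_ ?_ (by nlinarith only [hu0, hu1]))
      · rw [e1]
        exact sub_le_sub_left (mul_le_mul_of_nonneg_left ht1 (by positivity)) 1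
      · refine div_le_div₀ (by positivity) (add_le_add le_rfl (by norm_num [rn, U])) (by positivity) ?_
        have h1 : 313 / 100 ≤ rn 52512687 := by norm_num [rn, U]
        have h2 : 201 / 50 ≤ rn 67444409 := by norm_num [rn, U]
        nlinarith only [h3, h1, h2]
      · refine div_nonneg (add_nonneg (rn_nonneg _) (rn_nonneg _)) ?_
        have := rn_nonneg 52512687; have := rn_nonneg 67444409
        positivity
    have hm := mills2_at hy0 hx1
    have hsu0 : 0 ≤ 1 - rn xu * rn xu * rn w.tl * (1 / 2) := hus.le.trans hsu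
    have hm0 : 0 ≤ mills2UpR x1 := hM.le.trans hm
    have hsy0 := rn_nonneg sy
    have hlow0 := millsLow_pos p (u := u) ⟨hu0.le, hu1⟩
    unfold capBelow
    rw [div_eq_mul_inv, div_eq_mul_inv, div_eq_mul_inv]
    refine mul_le_mul (mul_le_mul (mul_le_mul hw.hlam hm hM.le (rn_nonneg _)) (add_le_add
      (mul_le_mul (mul_le_mul hw.he hw.hQ (by positivity) he0) he (by positivity) (mul_nonneg he0 hQ0))
      (mul_le_mul hsu (inv_anti₀ h5 hL) (inv_nonneg.2 hlow0.le) hsu0)) (by positivity) (mul_nonneg (rn_nonneg _) hm0))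
      hsy (by positivity) ?_
    have := inv_nonneg.2 h5.le
    have := rn_nonneg e
    have := rn_nonneg w.lam
    positivity
  | reach x0 x1 Cn l0 wd sy =>
    simp only [capOk, Bool.and_eq_true] at hc
    obtain ⟨⟨⟨⟨a1, a2⟩, a3⟩, a4⟩, a5⟩ := hc
    have h1 := le_of_nn a1 (((has_cst x1).mul (has_cst x1) z0 z0).sub (has_cst xh))
    have h2 := le_of_nn a2 ((has_cst xl).sub ((has_cst x0).mul (has_cst x0) z0 z0))
    have hx1 : xP p y ≤ rn x1 ^ 2 := hxh.trans (by linarith only [h1, sq (rn x1)])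
    have hwd := reachOk_sound a3 hpt hw ht0 ht1 (le_trans (by linarith only [h2, sq (rn x0)]) hxl) hx1
    obtain ⟨-, hsy⟩ := semi_inv_le hpt.hy ht1 hx1 a4
    have h5 := le_of_nn a5 ((has_cst W).sub ((has_cst wd).mul (has_cst sy) z0 z0))
    calc (r ^ p)⁻¹ = (r ^ p)⁻¹ * semi y * (semi y)⁻¹ := by field_simp
      _ ≤ rn wd * rn sy := mul_le_mul hwd hsy (inv_nonneg.2 hs.le) (rn_nonneg _)
      _ ≤ rn W := by linarith

/-- The lower band with the gain `G` of the sharper tail. -/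
theorem gainOk_sound {G x1 : ℕ} (hg : gainOk w xh G x1 = true) (hpt : Pt p k y t r lam) (hp : 29 ≤ p)
    (ht1 : tP p ≤ rn w.th) (hxh : xP p y ≤ rn xh) {E : ℝ} (hE : lam ^ p - 1 ≤ E * tP p) :
    1 ≤ rn G ∧ (y - t) * xP p y * rn G ≤ E * tP p * (1 - y ^ 2) * y := by
  simp only [gainOk, Bool.and_eq_true] at hg
  obtain ⟨⟨⟨⟨⟨a1, a2⟩, a3⟩, a4⟩, a5⟩, a6⟩ := hg
  have h1 := le_of_nn a1 (((has_cst x1).mul (has_cst x1) z0 z0).sub (has_cst xh))
  have h2 := le_of_nn a2 ((has_cst G).sub has_one)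
  have h3 := pos_of_ps a3 (has_cst x1)
  have hden : (lowDen x1).Has 0 0 (rn x1 * rn x1 + rn 52512687 * rn x1 + rn 67444409) :=
    (((has_cst x1).mul (has_cst x1) z0 z0).add ((has_cst _).mul (has_cst x1) z0 z0)).add (has_cst _)
  have h4 := pos_of_ps a4 hden
  have hd := has_one.sub ((has_cst (S := 0) (T := 0) xh).mul (has_cst w.th) z0 z0)
  have h5 := pos_of_ps a5 hd
  have h6 := le_of_nn a6 ((hd.mul ((has_cst x1).add (has_cst _)) z0 z0).sub
    (((has_cst G).sub has_one).mul ((has_cst x1).mul hden z0 z0) z0 z0))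
  refine ⟨by linarith only [h2], ?_⟩
  obtain ⟨hy, ht, -, hlam, -, -, hback, -, -⟩ := id hpt
  have hy0 := hy.1
  set x := √((p : ℝ) + 2) * y with hx
  have hsA : 0 < √((p : ℝ) + 2) := Real.sqrt_pos.2 (by positivity)
  have hx0 : 0 < x := by positivity
  have hxX : x * x = xP p y := by
    rw [hx, mul_mul_mul_comm, Real.mul_self_sqrt (by positivity), xP]; ring
  have hxle : x ≤ rn x1 := by
    rw [hx, sqrt_xP p hy0.le, Real.sqrt_le_left h3.le]
    exact hxh.trans (by linarith only [h1, sq (rn x1)])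
  have hS : 1 - rn xh * rn w.th ≤ 1 - y ^ 2 := by
    rw [← xP_mul p y]
    exact sub_le_sub_left (mul_le_mul hxh ht1 (tP_pos p).le (rn_nonneg _)) 1
  have hgain : rn G * x ≤ millsLow p y := by
    rw [millsLow, ← hx]
    have k1 : rn 52512686 ≤ 313 / 100 := by norm_num [rn, U]
    have k2 : 313 / 100 ≤ rn 52512687 := by norm_num [rn, U]
    have k3 : 201 / 50 ≤ rn 67444409 := by norm_num [rn, U]
    have q0 : 0 < x * (x ^ 2 + 313 / 100 * x + 201 / 50) := by positivity
    have q1 : (rn G - 1) * (x * (x ^ 2 + 313 / 100 * x + 201 / 50)) ≤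
        (1 - y ^ 2) * (x + 313 / 100) := by
      have m0 : x * (x ^ 2 + 313 / 100 * x + 201 / 50) * (rn x1 + 313 / 100) ≤
          rn x1 * (rn x1 * rn x1 + 313 / 100 * rn x1 + 201 / 50) * (x + 313 / 100) := by
        nlinarith only [mul_nonneg (sub_nonneg.2 hxle) (mul_nonneg hx0.le h3.le),
          mul_nonneg (sub_nonneg.2 hxle) hx0.le, mul_nonneg (sub_nonneg.2 hxle) h3.le,
          mul_nonneg (sub_nonneg.2 hxle) (mul_nonneg (mul_nonneg hx0.le h3.le) (add_nonneg hx0.le h3.le)),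
          mul_nonneg (sub_nonneg.2 hxle) (sq_nonneg x), mul_nonneg (sub_nonneg.2 hxle) (sq_nonneg (rn x1)),
          hxle]
      have m1 : (rn G - 1) * (rn x1 * (rn x1 * rn x1 + 313 / 100 * rn x1 + 201 / 50)) ≤
          (1 - y ^ 2) * (rn x1 + 313 / 100) := by
        refine le_trans (mul_le_mul_of_nonneg_left (mul_le_mul_of_nonneg_left ?_ h3.le) h2)
          (le_trans (sub_nonneg.1 h6) (mul_le_mul hS (by linarith only [k1])
            (add_nonneg h3.le (rn_nonneg _)) (h5.le.trans hS)))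
        nlinarith only [h3, k2, k3]
      refine le_of_mul_le_mul_right ?_ (show 0 < rn x1 + 313 / 100 by positivity)
      have := mul_le_mul_of_nonneg_left m0 h2
      have := mul_le_mul_of_nonneg_right m1 (show 0 ≤ x + 313 / 100 by positivity)
      linarith
    have q2 : rn G * x - x ≤ (1 - y ^ 2) * ((x + 313 / 100) / (x ^ 2 + 313 / 100 * x + 201 / 50)) := by
      rw [← mul_div_assoc, le_div_iff₀ (by positivity)]
      linarith only [q1]
    linarith only [q2]
  have hb := band_back2 hp hy ht hlam hback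
  have hL := millsLow_pos p (u := y) ⟨hy0.le, hy.2⟩
  have hy2 : 0 ≤ 1 - y ^ 2 := by nlinarith only [hy0, hy.2]
  rw [le_div_iff₀ (by positivity)] at hb
  have hb' := hb.trans (mul_le_mul_of_nonneg_right hE hy2)
  rcases le_total y t with hyt | hyt
  · refine le_trans (mul_nonpos_of_nonpos_of_nonneg (mul_nonpos_of_nonpos_of_nonneg (by linarith) ?_)
      (by linarith only [h2])) ?_
    · rw [← hxX]; positivity
    · have : 0 ≤ E * tP p := le_trans (sub_nonneg.2 (one_le_pow₀ hlam)) hE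
      positivity
  calc (y - t) * xP p y * rn G = (y - t) * √((p : ℝ) + 2) * (rn G * x) * y := by rw [← hxX, hx]; ring
    _ ≤ (y - t) * √((p : ℝ) + 2) * millsLow p y * y :=
        mul_le_mul_of_nonneg_right (mul_le_mul_of_nonneg_left hgain (by
          have := sub_nonneg.2 hyt; positivity)) hy0.le
    _ ≤ E * tP p * (1 - y ^ 2) * y := mul_le_mul_of_nonneg_right (le_of_eq_of_le (by ring) hb') hy0.le

end Vale.Agent.P237.All.Transport.Middle.Low
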