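import Vale.Agent.P237.All.Middle.Low.ValsSound
import Vale.Agent.P237.All.Middle.Low.CapSound

/-!
P237, every dimension, middle regime in dimension `45..130`: a box that passes the test gives the
pointwise inequality of the certificate.
-/

noncomputable section

open Real Set

namespace Vale.Agent.P237.All.Transport.Middle.Low

open Mid (Sg AF U U_pos U_ne Pt XP iA epsP eps_pos ups)

/-- A point that a profile failing the bound can reach, with the parameters of a cell. -/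
structure Hyp (c : Cell) (p : ℕ) (k y t r lam E : ℝ) : Prop where
  hp : 29 ≤ p
  hk : 0 ≤ k
  hkK : k ≤ rn c.K
  hK : c.K ≤ 285212672
  hg : rv c.a.g ∈ Icc (0 : ℝ) 1
  pt : Pt p k y t r lam
  hEk : k / (1 - k * tP p / 2) ≤ E
  hE : E ∈ Icc (rn c.E0) (rn c.E1)

/-- The pointwise inequality of the certificate. -/
def Target (b : RPar2) (p : ℕ) (c2 y t r lam E : ℝ) : Prop :=
  density p 0 b.a.g 1 1 (ellM b.a p c2) lam c2 y t r +
      (potFY p (potA2 b p) (potA2' b p) (potW b.a) (potW' b.a) y t +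
        potFT p (potA2 b p) (potW b.a) y t / r ^ p) ≤
    semi y ^ (p + 1) * (majZero p b.a.g 1 c2 y + tP p ^ 2 *
      ((polyR (xP p y) b.a.p0 + E * polyR (xP p y) b.a.p1 * (1 - y ^ 2) ^ 2) / (1 - y ^ 2)))

variable {c : Cell} {p : ℕ} {k y t r lam E : ℝ}

/-- The band behind `y` and the bounds on `lam`. -/
theorem Hyp.facts (h : Hyp c p k y t r lam E) :
    0 ≤ E ∧ (p : ℝ) * log lam ≤ E * tP p ∧ lam ^ p - 1 ≤ E * tP p ∧
      (y - t) * xP p y ≤ E * tP p * (1 - y ^ 2) * y := by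
  have hk0 := h.hk
  have hk17 : k ≤ 17 := h.hkK.trans (K_le h.hK)
  have hp : (29 : ℝ) ≤ p := by exact_mod_cast h.hp
  have hu := tP_pos p
  have hd : 0 < 1 - k * tP p / 2 := by
    have : tP p ≤ 1 / 31 := one_div_le_one_div_of_le (by norm_num) (by linarith)
    nlinarith [mul_le_mul hk17 this hu.le (by norm_num : (0 : ℝ) ≤ 17)]
  have hE0 : k ≤ E := le_trans (le_div_self hk0 hd (by linarith [mul_nonneg hk0 hu.le])) h.hEk
  have hkt : k / ((p : ℝ) + 2) = k * tP p := by simp only [tP]; ring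
  refine ⟨hk0.trans hE0, ?_, ?_, ?_⟩
  · have hl0 : 0 < lam := lt_of_lt_of_le one_pos h.pt.hlam
    have hl := (Real.log_le_iff_le_exp (pow_pos hl0 _)).2 h.pt.hpow
    rw [Real.log_pow] at hl
    push_cast at hl
    rw [le_div_iff₀ (by positivity)] at hl
    have hlog := Real.log_nonneg h.pt.hlam
    rw [tP, mul_one_div, le_div_iff₀ (by positivity)]
    refine le_trans ?_ hE0
    calc (p : ℝ) * log lam * ((p : ℝ) + 2) ≤ ((p : ℝ) + 1) * log lam * ((p : ℝ) + 1) := by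
          linarith [hlog]
      _ ≤ k := hl
  · refine (Middle.excess_lam_le p h.pt.hlam hk0 (by rw [hkt]; linarith only [hd]) h.pt.hpow).trans ?_
    rw [hkt, mul_div_right_comm]
    exact mul_le_mul_of_nonneg_right h.hEk hu.le
  · have hε := eps_pos p
    have he : epsP p ≤ 1 / 30 := one_div_le_one_div_of_le (by norm_num) (by linarith)
    have hk2 : k * epsP p < 2 := by nlinarith [mul_le_mul hk17 he hε.le (by norm_num : (0 : ℝ) ≤ 17)]
    obtain ⟨hb, -⟩ := Mid.band h.pt hk0 hk2 (le_refl (1 / (1 + epsP p - k * epsP p / 2)))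
    have hy := h.pt.hy.1
    have hX : 0 < xP p y := by unfold xP; positivity
    have hden : 0 < (p : ℝ) + 2 - k / 2 := by linarith
    have key : k * (1 / (1 + epsP p - k * epsP p / 2)) * epsP p = k / (1 - k * tP p / 2) * tP p := by
      simp only [epsP, tP]
      have e1 : 1 + 1 / ((p : ℝ) + 1) - k * (1 / ((p : ℝ) + 1)) / 2 =
          ((p : ℝ) + 2 - k / 2) / ((p : ℝ) + 1) := by field_simp; ring
      have e2 : 1 - k * (1 / ((p : ℝ) + 2)) / 2 = ((p : ℝ) + 2 - k / 2) / ((p : ℝ) + 2) := by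
        field_simp
      rw [e1, e2]; field_simp
    have h1 := mul_le_mul_of_nonneg_right hb (show 0 ≤ epsP p * y * xP p y by positivity)
    have e3 : -ups p y t * (epsP p * y * xP p y) = (y - t) * xP p y := by
      simp only [ups]; field_simp; ring
    have e4 : k * (1 / (1 + epsP p - k * epsP p / 2)) * (1 / XP p y - iA (epsP p)) *
        (epsP p * y * xP p y) = k / (1 - k * tP p / 2) * tP p * (1 - y ^ 2) * y := by
      rw [← key, show XP p y = xP p y from rfl, Mid.eps_iA, show (1 : ℝ) / ((p : ℝ) + 2) = tP p from rfl,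
        ← xP_mul p y]
      field_simp
    rw [e3, e4] at h1
    refine h1.trans (mul_le_mul_of_nonneg_right (mul_le_mul_of_nonneg_right
      (mul_le_mul_of_nonneg_right h.hEk hu.le) ?_) hy.le)
    nlinarith [h.pt.hy.1, h.pt.hy.2]

variable {S T : ℝ}

theorem has_theta {V2 : Vals2} {b : RPar2} {x u : ℝ} {n : ℕ} (hS : |S| ≤ 1) (hT : |T| ≤ 1)
    (hV : V2.Has b S T x u) :
    (thetaAF V2.V n).Has S T (2 * b.a.te u * rn n * ((1 - x * u) * u) * (u / (1 - 2 * u))) := by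
  have := (((has_scale hV.te hS hT 2).mul (has_cst n) hS hT).mul (hV.S'.mul hV.t hS hT) hS hT).mul
    hV.τ hS hT
  push_cast at this
  exact this

/-- The part of the excess weight that depends on `θ`, at the top of `E`. -/
theorem theta_top (h : Hyp c p k y t r lam E) (hte : c.real.a.te (tP p) ≤ 0)
    (hband : (y - t) * xP p y ≤ E * tP p * (1 - y ^ 2) * y) :
    majX p c.real.a.g 1 1 y * (t - y) / p ≤ -(2 * c.real.a.te (tP p) * rn c.E1 *
      ((1 - xP p y * tP p) * tP p) * (tP p / (1 - 2 * tP p))) := by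
  have hp1 : 1 ≤ p := le_trans (by norm_num) h.hp
  have hp0 : (0 : ℝ) < p := Nat.cast_pos.2 (by omega)
  have hS0 : 0 ≤ 1 - y ^ 2 := by nlinarith [h.pt.hy.1, h.pt.hy.2]
  have hτ : 0 ≤ tP p / (1 - 2 * tP p) := by
    have e : 1 - 2 * tP p = (p : ℝ) / ((p : ℝ) + 2) := by simp only [tP]; field_simp; ring
    rw [e]; exact div_nonneg (tP_pos p).le (by positivity)
  refine (maj_theta hp1 h.pt.hy hte hband).trans ?_
  rw [xP_mul]
  have := mul_le_mul_of_nonneg_right (mul_le_mul_of_nonneg_right (mul_le_mul_of_nonneg_right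
    (mul_le_mul_of_nonneg_left h.hE.2 (show 0 ≤ -2 * c.real.a.te (tP p) by linarith only [hte])) hS0)
      (tP_pos p).le) hτ
  linarith only [this]

/-- A bound far from zero through `Hs`, and the two ways for the other half. -/
theorem far_sound {c2 : ℝ} (h : Hyp c p k y t r lam E) (hS : |S| ≤ 1) (hT : |T| ≤ 1) {V2 : Vals2}
    (hV : V2.Has c.real S T (xP p y) (tP p)) {wf rp rq : ℕ} {fk fH : AF} {kk H : ℝ}
    (hk : fk.Has S T kk) (hk0 : 0 ≤ kk)
    (hK1 : c.real.a.K1 (xP p y) (tP p) - 2 * c.real.a.te (tP p) * rn c.E1 *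
      ((1 - xP p y * tP p) * tP p) * (tP p / (1 - 2 * tP p)) ≤ kk)
    (hH : fH.Has S T H) (hW : r ≤ 1 → ((r ^ p)⁻¹ - 1) * (1 - y ^ 2) ≤ rn wf)
    (hHi : r ≤ 1 → c.real.R (xP p y) ≤ rn rp →
      (majRe p c.real.a.g 1 1 (ellM c.real.a p c2) c2 (potA2 c.real p y) y * ((r ^ p)⁻¹ - 1) +
        kk * ((r ^ p)⁻¹ - 1 + p * (r - 1)) -
        4 * (1 - y ^ 2) * (r ^ (p + 1) - 1 - ((p : ℝ) + 1) * (r - 1))) * (1 - y ^ 2) ≤ tP p ^ 2 * H)
    (hb : farBase c.E0 c.E1 wf rp rq fk fH V2 = true) : Target c.real p c2 y t r lam E := by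
  obtain ⟨hE0, -, -, hband⟩ := h.facts
  obtain ⟨hy, ht, hr, hlam, -, hridge, -, -, -⟩ := id h.pt
  have hp1 : 1 ≤ p := le_trans (by norm_num) h.hp
  have hp2 : 2 ≤ p := le_trans (by norm_num) h.hp
  have hg0 : 0 ≤ c.real.a.g := h.hg.1
  have hg1 : c.real.a.g ≤ 1 := h.hg.2
  have hS0 : 0 < 1 - y ^ 2 := by nlinarith [hy.1, hy.2]
  have hu := tP_pos p
  have hx0 : 0 < xP p y := by have := hy.1; unfold xP; positivity
  simp only [farBase, AF.force_eq, Bool.and_eq_true, Bool.or_eq_true] at hb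
  obtain ⟨⟨⟨⟨⟨⟨⟨⟨⟨⟨b1, b2⟩, b3⟩, b4⟩, b5⟩, b6⟩, b7⟩, b8⟩, b9⟩, b10⟩, b11⟩ := hb
  have gS := hV.S'
  rw [xP_mul] at gS
  have hti := hV.t.inv hS hT (ps_posPart b3)
  have e0 := has_cst (S := S) (T := T) c.E0
  have e1 := has_cst (S := S) (T := T) c.E1
  have h4' : (cN 4).Has S T 4 := by simpa using has_cN (S := S) (T := T) 4
  have cn := has_cst (S := S) (T := T) rq
  have hb' := ((hV.L.mul gS hS hT).neg).sub (hV.P1.mul (gS.mul gS hS hT) hS hT)
  have hcc := (hV.C.mul gS hS hT).mul (hV.X.inv hS hT (ps_posPart b2)) hS hT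
  have hden := has_scale ((h4'.mul gS hS hT).sub hk) hS hT 2
  have hn0 := cn.add (hcc.mul e0 hS hT)
  have hn1 := cn.add (hcc.mul e1 hS hT)
  have hte : c.real.a.te (tP p) ≤ 0 := neg_nonneg.1 (nn_sound b1 hV.te.neg hS hT)
  have hC : 0 ≤ c.real.a.C (xP p y) (tP p) := nn_sound b4 hV.C hS hT
  have hQ : 0 ≤ c.real.a.Q (xP p y) (tP p) := nn_sound b5 hV.Q hS hT
  have b6' := nn_sound b6 (((hV.X.mul hV.t hS hT).mul hV.L hS hT).add
    (hV.C.mul (has_cst wf) hS hT)).neg hS hT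
  have b7' := nn_sound b7 ((has_cst rp).sub hV.R) hS hT
  have b8' := nn_sound b8 (cn.add hV.R) hS hT
  have b9' := nn_sound b9 (hV.P0.sub (hH.add (hb'.mul e0 hS hT))) hS hT
  have b10' := nn_sound b10 (hV.P0.sub (hH.add (hb'.mul e1 hS hT))) hS hT
  set Sv := 1 - y ^ 2
  set x := xP p y
  set u := tP p
  set P0 := polyR x c.real.a.p0
  set P1 := polyR x c.real.a.p1
  set L := c.real.L x u
  set C := c.real.a.C x u
  set bb := -(L * Sv) - P1 * (Sv * Sv) with hbb
  set cc := C * Sv * x⁻¹ with hccd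
  set η := E * u * Sv * y / x with hη
  have hθ : -η ≤ t - y := by rw [hη, neg_le, neg_sub, le_div_iff₀ hx0]; exact hband
  have hη0 : 0 ≤ η := by have := hy.1; rw [hη]; positivity
  set Cx := majCross p c.real.a.g 1 1 (potW c.real.a y / y) y with hCxd
  have hCxy : Cx * y = C := maj_cross hp1 hy
  have hCx0 : 0 ≤ Cx := nonneg_of_mul_nonneg_left (hCxy ▸ hC) hy.1
  have eη : Cx * η = u * (cc * E) := by
    rw [hη, hccd, ← hCxy]; field_simp
  have hRe : -(u * rn rq) ≤ majRe p c.real.a.g 1 1 (ellM c.real.a p c2) c2 (potA2 c.real p y) y := by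
    rw [maj_re2 hp1]
    linarith only [mul_nonneg hu.le b8']
  have hkk : majLr p c.real.a.g 1 1 (ellM c.real.a p c2) c2 y / p +
      majX p c.real.a.g 1 1 y * (t - y) / p ≤ kk := by
    rw [maj_k1 hp1]
    have := theta_top h hte hband
    linarith only [this, hK1]
  have fin : ∀ Q : ℝ, Q + bb * E ≤ P0 →
      u ^ 2 * Q - u ^ 2 * L * E * Sv ≤ u ^ 2 * (P0 + E * P1 * Sv ^ 2) := fun Q hQ' => by
    have := mul_le_mul_of_nonneg_left hQ' (sq_nonneg u)
    rw [hbb] at this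
    linarith only [this]
  have fH := convex_end (le_refl (0 : ℝ)) h.hE (b := bb) (P := P0 - H)
    (by linarith only [b9']) (by linarith only [b10'])
  unfold Target
  rw [Mid.pot_eq hy hr]
  rcases b11 with ⟨⟨a1, a2⟩, a3⟩ | ⟨a1, a2⟩
  · have d0 := ps_sound a1 hden hS hT
    have a2' := nn_sound a2 (hV.P0.sub (((hn0.mul hn0 hS hT).mul (gS.mul (hden.inv hS hT (ps_posPart a1))
      hS hT) hS hT).add (hb'.mul e0 hS hT))) hS hT
    have a3' := nn_sound a3 (hV.P0.sub (((hn1.mul hn1 hS hT).mul (gS.mul (hden.inv hS hT (ps_posPart a1))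
      hS hT) hS hT).add (hb'.mul e1 hS hT))) hS hT
    push_cast at d0 a2' a3'
    set di := (2 * (4 * Sv - kk))⁻¹ with hdi
    have ha : 0 ≤ cc * cc * (Sv * di) :=
      mul_nonneg (mul_self_nonneg _) (mul_nonneg hS0.le (inv_nonneg.2 d0.le))
    have fL := convex_end ha h.hE (b := bb + 2 * rn rq * cc * (Sv * di))
      (P := P0 - rn rq * rn rq * (Sv * di)) (by linarith only [a2']) (by linarith only [a3'])
    refine far_le2 p hp2 (X := x) (tt := u) (S := Sv) (L := L) (wd := rn wf) (k := kk)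
      (H := u ^ 2 * H) (Lo := u ^ 2 * ((rn rq + cc * E) ^ 2 * (Sv * di)))
      hy hr hg0 hg1 hE0 rfl rfl rfl (maj_le2 hy) (maj_cross hp1 hy) (maj_sq hy) hkk hband hW
      (rn_nonneg wf) hC hQ (by linarith only [b6']) (fun hr1 => hHi hr1 (by linarith only [b7']))
      (fun hr1 => (far_lo_sq p hp2 hr1 hS0 hRe hk0 (by linarith only [d0]) hCx0 hθ).trans
        (le_of_eq ?_)) (fin _ (by linarith only [fH])) (fin _ (by linarith only [fL]))
    rw [eη, hdi, div_eq_mul_inv]; ring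
  · have a1' := nn_sound a1 (hV.P0.sub (((((((hk.mul hk hS hT).mul (has_cst 2097152) hS hT).mul hti hS hT).mul
      hti hS hT)).add ((hn0.mul gS hS hT).mul hti hS hT)).add (hb'.mul e0 hS hT))) hS hT
    have a2' := nn_sound a2 (hV.P0.sub (((((((hk.mul hk hS hT).mul (has_cst 2097152) hS hT).mul hti hS hT).mul
      hti hS hT)).add ((hn1.mul gS hS hT).mul hti hS hT)).add (hb'.mul e1 hS hT))) hS hT
    have e8 : rn 2097152 = 1 / 8 := by norm_num [rn, U]
    rw [e8] at a1' a2'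
    have fL := convex_end (le_refl (0 : ℝ)) h.hE (b := bb + cc * Sv * u⁻¹)
      (P := P0 - kk * kk * (1 / 8) * u⁻¹ * u⁻¹ - rn rq * Sv * u⁻¹)
      (by linarith only [a1']) (by linarith only [a2'])
    refine far_le2 p hp2 (X := x) (tt := u) (S := Sv) (L := L) (wd := rn wf) (k := kk)
      (H := u ^ 2 * H)
      (Lo := u ^ 2 * (kk * kk * (1 / 8) * u⁻¹ * u⁻¹ + (rn rq + cc * E) * Sv * u⁻¹))
      hy hr hg0 hg1 hE0 rfl rfl rfl (maj_le2 hy) (maj_cross hp1 hy) (maj_sq hy) hkk hband hW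
      (rn_nonneg wf) hC hQ (by linarith only [b6']) (fun hr1 => hHi hr1 (by linarith only [b7']))
      (fun hr1 => (far_lo_gen p hr1 hS0 hRe (mul_nonneg hu.le (rn_nonneg rq)) hk0 hCx0 hθ hη0).trans
        (le_of_eq ?_)) (fin _ (by linarith only [fH])) (fin _ (by linarith only [fL]))
    rw [eη]; field_simp

/-- A box that passes gives the inequality at its points. -/
theorem boxOk_sound {c2 : ℝ} (h : Hyp c p k y t r lam E) {w : Row} (hw : rowOk c.K w = true)
    (htl : rn w.tl ≤ tP p) (hth : tP p ≤ rn w.th) {xl xh : ℕ} (hxl : rn xl ≤ xP p y)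
    (hxh : xP p y ≤ rn xh) (hxle : xl ≤ xh) {pc : Piece}
    (hb : boxOk c w xl xh pc = true) : Target c.real p c2 y t r lam E := by
  obtain ⟨hE0, hεL, hlamE, hband⟩ := h.facts
  obtain ⟨hy, ht, hr, hlam, -, hridge, -, -, -⟩ := id h.pt
  have hR0 := rowOk_sound hw h.pt h.hk h.hkK htl hth
  have htle : w.tl ≤ w.th := by
    simp only [rowOk, Bool.and_eq_true] at hw
    exact Nat.le_of_ble_eq_true hw.1.1.1.1.1.1.1
  have hp1 : 1 ≤ p := le_trans (by norm_num) h.hp
  have hp2 : 2 ≤ p := le_trans (by norm_num) h.hp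
  have hg0 : 0 ≤ c.real.a.g := h.hg.1
  have hg1 : c.real.a.g ≤ 1 := h.hg.2
  have hS0 : 0 < 1 - y ^ 2 := by nlinarith [hy.1, hy.2]
  have hu := tP_pos p
  have hx0 : 0 < xP p y := by have := hy.1; unfold xP; positivity
  have hSx : 1 - xP p y * tP p = 1 - y ^ 2 := by rw [xP_mul]
  have hτ : tP p / (1 - 2 * tP p) = 1 / (p : ℝ) := by
    have : (0 : ℝ) < p := Nat.cast_pos.2 (by omega)
    have e : 1 - 2 * tP p = (p : ℝ) / ((p : ℝ) + 2) := by simp only [tP]; field_simp; ring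
    rw [e, tP]; field_simp
  have vals : ∀ {f : Vals2 → Bool}, withVals2 c w xl xh f = true → ∃ V2 : Vals2, f V2 = true ∧
      ∃ S T : ℝ, |S| ≤ 1 ∧ |T| ≤ 1 ∧ V2.Has c.real S T (xP p y) (tP p) := by
    intro f hf
    simp only [withVals2, Bool.and_eq_true] at hf
    obtain ⟨⟨hB, hv⟩, hf⟩ := hf
    obtain ⟨V2, hVk, hV⟩ := vals2_sound c _ _ _ hB hv (mkBox_X (c := ⟨c.a, c.K, c.E0, c.E1⟩) hxle hxl hxh)
      (mkBox_T (c := ⟨c.a, c.K, c.E0, c.E1⟩) htle htl hth)
    rw [hVk] at hf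
    exact ⟨V2, hf, hV⟩
  cases pc with
  | skip =>
    exfalso
    simp only [boxOk] at hb
    have := mul_le_mul hxl htl (rn_nonneg w.tl) hx0.le
    linarith only [hSx, hS0, this, le_of_nn hb (((has_cst xl).mul (has_cst w.tl) z0 z0).sub has_one)]
  | bulk W cp M G x1 =>
    simp only [boxOk, Bool.and_eq_true] at hb
    obtain ⟨⟨hcap, hgain⟩, hv⟩ := hb
    obtain ⟨V2, hv', S, T, hS, hT, hV⟩ := vals hv
    have hcW := capOk_sound h.pt h.hp hR0 htl hth hxl hxh hcap
    obtain ⟨hG, hbG⟩ := gainOk_sound hgain h.pt h.hp hth hxh hlamE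
    simp only [bulkOk2, AF.force_eq, Bool.and_eq_true] at hv'
    obtain ⟨⟨⟨⟨⟨⟨⟨⟨⟨⟨b1, b2⟩, b3⟩, b4⟩, b5⟩, b6⟩, b7⟩, b8⟩, b9⟩, b10⟩, b11⟩ := hv'
    have gS := hV.S'
    rw [hSx] at gS
    have hte : c.real.a.te (tP p) ≤ 0 := neg_nonneg.1 (nn_sound b1 hV.te.neg hS hT)
    have hP1 : 0 ≤ polyR (xP p y) c.real.a.p1 := nn_sound b2 hV.P1 hS hT
    have cW := has_cst (S := S) (T := T) W
    have h1' : (cN 1).Has S T 1 := has_one
    have h4' : (cN 4).Has S T 4 := by simpa using has_cN (S := S) (T := T) 4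
    have hW1 : 1 ≤ rn W := sub_nonneg.1 (nn_sound b6 (cW.sub h1') hS hT)
    have hex := ((has_scale gS hS hT 4).add hV.K1).sub (has_theta (n := c.E1) hS hT hV)
    obtain ⟨Mv, hM, hM0, hMle⟩ := multAF_sound hS hT hex gS hS0 b7
    have hkh : (bulkKh W V2.V.τ (multAF _ V2.V.S M)).Has S T _ :=
      (((h4'.add (hV.τ.mul (has_scale (cW.inv hS hT (ps_posPart b4)) hS hT 4) hS hT)).sub
        (hM.mul ((cW.mul ((cW.add h1').inv hS hT (ps_posPart b5)) hS hT).add
          (hV.τ.mul has_half hS hT)) hS hT))).mul (cW.inv hS hT (ps_posPart b4)) hS hT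
    have hkl : (bulkKl V2.V.τ (multAF _ V2.V.S M)).Has S T _ :=
      (h4'.add (has_scale hV.τ hS hT 4)).sub (hM.mul (has_half.add (hV.τ.mul has_half hS hT)) hS hT)
    have b8' := nn_sound b8 hkh hS hT
    have b9' := nn_sound b9 hkl hS hT
    have hti := hV.t.inv hS hT (ps_posPart b3)
    have hB := hV.X.mul (hV.L.add ((gS.mul (has_cst G) hS hT).mul hV.P1 hS hT)) hS hT
    obtain ⟨qh, ph, dh⟩ := sideOk2_sound hS hT hV.R hV.C hB gS hV.Q hkh hV.P0
      ((gS.mul (cW.sub h1') hS hT).mul hti hS hT) b10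
    obtain ⟨ql, pl, dl⟩ := sideOk2_sound hS hT hV.R.neg hV.C.neg hB gS
      (hV.Q.add (has_scale (hV.X.mul hV.t hS hT) hS hT 4)) hkl hV.P0 (gS.mul hti hS hT) b11
    push_cast at b8' b9' hMle ph dh ql pl dl
    have hG0 : 0 < rn G := by linarith only [hG]
    unfold Target
    rw [Mid.pot_eq hy hr]
    refine (bulk_le2 p hp2 (κh := _) (κl := _) (E := E / rn G)
      (P1 := rn G * polyR (xP p y) c.real.a.p1) (P0 := polyR (xP p y) c.real.a.p0) (X := xP p y) (tt := tP p) (S := 1 - y ^ 2)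
      hy hr hg0 hg1 rfl rfl rfl (maj_re2 hp1) (maj_le2 hy) (maj_cross hp1 hy) (maj_sq hy)
      ?_ hM0 ?_ (mul_nonneg hG0.le hP1) (fun _ => hcW) hW1 b8' b9' ?_ ?_ ?_ ?_).trans (le_of_eq ?_)
    · rw [majKw, maj_k1 hp1, show majKp 1 1 y (t - y) = 4 * (1 - y ^ 2) by rw [majKp, majC]; ring]
      have h1 := theta_top h hte hband
      linarith only [h1, hMle]
    · rw [div_mul_eq_mul_div, div_mul_eq_mul_div, div_mul_eq_mul_div, le_div_iff₀ hG0]
      exact hbG
    · rw [hτ, show 1 / (2 * (p : ℝ)) = 1 / (p : ℝ) * (1 / 2) by field_simp]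
      apply le_of_eq; ring
    · have hW0 : rn W ≠ 0 := by linarith only [hW1]
      rw [hτ, mul_assoc, inv_mul_cancel₀ hW0, mul_one,
        show 1 / (2 * (p : ℝ)) = 1 / (p : ℝ) * (1 / 2) by field_simp,
        show 1 / ((p : ℝ) * rn W) = 1 / (p : ℝ) * (rn W)⁻¹ by field_simp, div_eq_mul_inv (rn W)]
      apply le_of_eq; ring
    · intro σ ψ hσ0 hσ1
      refine le_trans (le_of_eq ?_) (side_range (ψ := ψ) hS0 qh hσ0 ?_ ph dh)
      · ring
      · rw [mul_assoc, ← div_eq_mul_inv]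
        exact mul_le_mul_of_nonneg_left hσ1 hS0.le
    · intro σ ψ hσ0 hσ1
      refine le_trans (le_of_eq ?_) (side_range (ψ := ψ) hS0 ql hσ0 ?_ pl dl)
      · ring
      · rw [one_div] at hσ1
        exact mul_le_mul_of_nonneg_left hσ1 hS0.le
    · field_simp
  | tail W cp Kb l gm G x1 =>
    simp only [boxOk, Bool.and_eq_true] at hb
    obtain ⟨⟨hcap, hgain⟩, hv⟩ := hb
    obtain ⟨V2, hv', S, T, hS, hT, hV⟩ := vals hv
    have hcW := capOk_sound h.pt h.hp hR0 htl hth hxl hxh hcap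
    obtain ⟨hG, hbG⟩ := gainOk_sound hgain h.pt h.hp hth hxh hlamE
    simp only [tailOk2, AF.force_eq, Bool.and_eq_true] at hv'
    obtain ⟨⟨⟨⟨⟨⟨⟨⟨⟨⟨⟨⟨⟨⟨⟨b1, b2⟩, b3⟩, b4⟩, b5⟩, b6⟩, b7⟩, b8⟩, b9⟩, b10⟩, b11⟩, b12⟩, b13⟩, b14⟩,
      b15⟩, b16⟩ := hv'
    have gS := hV.S'
    rw [hSx] at gS
    have hte : c.real.a.te (tP p) ≤ 0 := neg_nonneg.1 (nn_sound b1 hV.te.neg hS hT)
    have hR : 0 ≤ c.real.R (xP p y) := nn_sound b2 hV.R hS hT
    have cW := has_cst (S := S) (T := T) W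
    have h1' : (cN 1).Has S T 1 := has_one
    have h4' : (cN 4).Has S T 4 := by simpa using has_cN (S := S) (T := T) 4
    have hW1 : 1 ≤ rn W := sub_nonneg.1 (nn_sound b5 (cW.sub h1') hS hT)
    have hlog := logOk_sound b6 (by linarith only [hW1])
    have hex := hV.K1.sub (has_theta (n := c.E1) hS hT hV)
    obtain ⟨Kv, hK, hK0, hKle⟩ := multAF_sound hS hT hex gS hS0 b9
    have hρ := (cW.add h1').mul has_half hS hT
    have hR1 := hV.R.mul hρ hS hT
    have hlt := (has_cst l).mul hV.t hS hT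
    have hXt := hV.X.mul hV.t hS hT
    have hcc := hV.C.sub ((has_cst gm).mul hXt hS hT)
    have hY := (hV.Q.mul gS hS hT).sub ((hV.X.mul ((has_half.sub hV.t).add hlt) hS hT).mul
      (hV.t.mul hR1 hS hT) hS hT)
    have hGi := (has_cst (S := S) (T := T) G).inv hS hT (ps_posPart b4)
    have hb' := ((hR1.sub (hV.L.mul hGi hS hT)).mul gS hS hT).sub (hV.P1.mul (gS.mul gS hS hT) hS hT)
    have hcf := ((hV.C.mul gS hS hT).mul (hV.X.inv hS hT (ps_posPart b3)) hS hT).mul hGi hS hT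
    have hd := has_scale (h4'.sub hK) hS hT 2
    have b8' := ps_sound b8 hd hS hT
    have hcf2 := (hcf.mul hcf hS hT).mul (hd.inv hS hT (ps_posPart b8)) hS hT
    have hkT : (tailKT W V2.V.τ (multAF _ V2.V.S Kb)).Has S T _ :=
      (has_scale ((cW.add h1').inv hS hT (ps_posPart b7)) hS hT 4).sub
        (hK.mul ((cW.mul ((cW.add h1').inv hS hT (ps_posPart b7)) hS hT).add
          (hV.τ.mul has_half hS hT)) hS hT)
    have b10' := nn_sound b10 hkT hS hT
    have b11' := nn_sound b11 ((hV.L.add (hR1.mul ((h1'.sub (hV.t.add hV.t)).add (hlt.add hlt)) hS hT)).add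
      (((has_cst gm).mul (cW.sub h1') hS hT).mul gS hS hT)).neg hS hT
    have b12' := nn_sound b12 hcc hS hT
    have b13' := nn_sound b13 hY hS hT
    have b14' := nn_sound b14 ((has_scale (hkT.mul hY hS hT) hS hT 4).sub
      ((hcc.mul hcc hS hT).mul cW hS hT)) hS hT
    have e0 := has_cst (S := S) (T := T) c.E0
    have e1 := has_cst (S := S) (T := T) c.E1
    have b15' := nn_sound b15 (hV.P0.sub ((hb'.mul e0 hS hT).add
      (hcf2.mul (e0.mul e0 hS hT) hS hT))) hS hT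
    have b16' := nn_sound b16 (hV.P0.sub ((hb'.mul e1 hS hT).add
      (hcf2.mul (e1.mul e1 hS hT) hS hT))) hS hT
    push_cast at b8' b10' b14' b15' b16' hKle
    rw [hτ] at b10' b14'
    have hK4 : Kv < 4 := by linarith only [b8']
    have hG0 : 0 < rn G := by linarith only [hG]
    unfold Target
    rw [Mid.pot_eq hy hr]
    refine tail_le2 p hp2 (X := xP p y) (tt := tP p) (S := 1 - y ^ 2) (W := rn W) (ℓ := rn l) (Kb := Kv)
      (κT := _) (γ := rn gm) (E' := E / rn G) hy ht hr hg0 hg1 hlam hridge hE0 (div_nonneg hE0 hG0.le)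
      hεL rfl rfl rfl (maj_re2 hp1) (maj_le2 hy) (maj_cross hp1 hy) (maj_sq hy)
      ?_ hK0 ?_ (fun _ => hcW) hW1 hlog hR (rn_nonneg gm) ?_ ?_ ?_ ?_ b10' hK4 ?_ ?_
    · rw [maj_k1 hp1]
      have h1 := theta_top h hte hband
      linarith only [h1, hKle]
    · rw [div_mul_eq_mul_div, div_mul_eq_mul_div, div_mul_eq_mul_div, le_div_iff₀ hG0]
      exact hbG
    · linarith only [b12']
    · linarith only [b11']
    · linarith only [b13']
    · rw [show 1 / (2 * (p : ℝ)) = 1 / (p : ℝ) * (1 / 2) by field_simp, div_eq_mul_inv 4,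
        div_eq_mul_inv (rn W)]
    · refine le_trans (le_of_eq ?_) ((sub_nonneg.1 b14').trans (le_of_eq ?_)) <;> ring
    · set bb := (c.real.R (xP p y) * ((rn W + 1) * (1 / 2)) - c.real.L (xP p y) (tP p) * (rn G)⁻¹) *
        (1 - y ^ 2) - polyR (xP p y) c.real.a.p1 * ((1 - y ^ 2) * (1 - y ^ 2)) with hbb
      set aa := c.real.a.C (xP p y) (tP p) * (1 - y ^ 2) * (xP p y)⁻¹ * (rn G)⁻¹ *
        (c.real.a.C (xP p y) (tP p) * (1 - y ^ 2) * (xP p y)⁻¹ * (rn G)⁻¹) * (2 * (4 - Kv))⁻¹ with haa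
      have ha : 0 ≤ aa := mul_nonneg (mul_self_nonneg _) (inv_nonneg.2 b8'.le)
      have hcv := convex_end ha h.hE (sub_nonneg.1 b15') (sub_nonneg.1 b16')
      have e : c.real.a.C (xP p y) (tP p) ^ 2 * (E / rn G) ^ 2 * (1 - y ^ 2) ^ 2 /
          (2 * (4 - Kv) * xP p y ^ 2) = aa * (E * E) := by
        rw [haa]; field_simp
      rw [e, hbb] at *
      rw [div_eq_mul_inv E]; linarith only [hcv]
  | farW x0 x1 Cn l0 wd sm wf kk rp rq =>
    simp only [boxOk, Bool.and_eq_true] at hb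
    obtain ⟨⟨⟨⟨⟨a1, a2⟩, a3⟩, a4⟩, a5⟩, hv⟩ := hb
    obtain ⟨V2, hv', S, T, hS, hT, hV⟩ := vals hv
    have h1 := le_of_nn a1 (((has_cst x1).mul (has_cst x1) z0 z0).sub (has_cst xh))
    have h2 := le_of_nn a2 ((has_cst xl).sub ((has_cst x0).mul (has_cst x0) z0 z0))
    have hwd := reachOk_sound a3 h.pt hR0 htl hth (le_trans (by linarith only [h2, sq (rn x0)]) hxl)
      (hxh.trans (by linarith only [h1, sq (rn x1)]))
    have h4 := le_of_nn a4 (((has_cst sm).mul (has_cst sm) z0 z0).sub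
      (has_one.sub ((has_cst xl).mul (has_cst w.tl) z0 z0)))
    have h5 := le_of_nn a5 ((has_cst wf).sub ((has_cst wd).mul (has_cst sm) z0 z0))
    have hsm : semi y ≤ rn sm := by
      rw [semi, Real.sqrt_le_left (rn_nonneg sm)]
      have := mul_le_mul hxl htl (rn_nonneg w.tl) hx0.le
      linarith only [this, h4, hSx, sq (rn sm)]
    have hW : r ≤ 1 → ((r ^ p)⁻¹ - 1) * (1 - y ^ 2) ≤ rn wf := fun _ => by
      have e : semi y * semi y = 1 - y ^ 2 := Real.mul_self_sqrt hS0.le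
      have : (r ^ p)⁻¹ * (1 - y ^ 2) ≤ rn wd * rn sm := by
        rw [← e, ← mul_assoc]
        exact mul_le_mul hwd hsm (Real.sqrt_nonneg _) (rn_nonneg _)
      linarith only [this, h5, hS0]
    simp only [farWOk, AF.force_eq, Bool.and_eq_true] at hv'
    obtain ⟨c1, c2'⟩ := hv'
    have hex := hV.K1.sub (has_theta (n := c.E1) hS hT hV)
    obtain ⟨kv, hk, hk0, hkle⟩ := aboveAF_sound hS hT hex c1
    have hti : V2.V.t.inv.Has S T (tP p)⁻¹ := by
      simp only [farBase, AF.force_eq, Bool.and_eq_true] at c2'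
      exact hV.t.inv hS hT (ps_posPart c2'.1.1.1.1.1.1.1.1.2)
    have hH := ((((hV.t.mul (has_cst rp) hS hT).add hk).mul (has_cst wf) hS hT).mul hti hS hT).mul hti hS hT
    refine far_sound h hS hT hV hk hk0 (by linarith only [hkle]) hH hW (fun hr1 hrp => ?_) c2'
    refine (far_hi_wd p hr hr1 hS0.le ?_ (mul_nonneg hu.le (rn_nonneg rp)) hk0 (hW hr1)).trans
      (le_of_eq ?_)
    · rw [maj_re2 hp1]; exact mul_le_mul_of_nonneg_left hrp hu.le
    · field_simp
  | farC W cp kk kn wf rp rq =>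
    simp only [boxOk, Bool.and_eq_true] at hb
    obtain ⟨hcap, hv⟩ := hb
    obtain ⟨V2, hv', S, T, hS, hT, hV⟩ := vals hv
    have hcW := capOk_sound h.pt h.hp hR0 htl hth hxl hxh hcap
    simp only [farCOk, AF.force_eq, Bool.and_eq_true] at hv'
    obtain ⟨⟨⟨⟨⟨⟨c1, c2'⟩, c3⟩, c4⟩, c5⟩, c6⟩, c7⟩ := hv'
    have gS := hV.S'
    rw [hSx] at gS
    have cW := has_cst (S := S) (T := T) W
    have h1' : (cN 1).Has S T 1 := has_one
    have hW1' := cW.sub h1'
    have hW1 : 1 ≤ rn W := sub_nonneg.1 (nn_sound c2' hW1' hS hT)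
    have hex := hV.K1.sub (has_theta (n := c.E1) hS hT hV)
    obtain ⟨kv, hk, hk0, hkle⟩ := aboveAF_sound hS hT hex c4
    have hneed := (hk.mul ((cW.mul ((cW.add h1').inv hS hT (ps_posPart c3)) hS hT).add
      (hV.τ.mul has_half hS hT)) hS hT).sub
        ((has_scale gS hS hT 4).mul ((cW.add h1').inv hS hT (ps_posPart c3)) hS hT)
    obtain ⟨knv, hkn, hkn0, hknle⟩ := aboveAF_sound hS hT hneed c5
    have hti : V2.V.t.inv.Has S T (tP p)⁻¹ := by
      simp only [farBase, AF.force_eq, Bool.and_eq_true] at c7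
      exact hV.t.inv hS hT (ps_posPart c7.1.1.1.1.1.1.1.1.2)
    have hH := (((((hV.t.mul (has_cst rp) hS hT).mul hW1' hS hT).add
      (hkn.mul ((hW1'.mul hW1' hS hT).mul (cW.inv hS hT (ps_posPart c1)) hS hT) hS hT)).mul gS hS hT).mul
        hti hS hT).mul hti hS hT
    have c6' := nn_sound c6 ((has_cst wf).sub (hW1'.mul gS hS hT)) hS hT
    push_cast at hkle hknle
    have hW : r ≤ 1 → ((r ^ p)⁻¹ - 1) * (1 - y ^ 2) ≤ rn wf := fun _ => by
      have := mul_le_mul_of_nonneg_right (sub_le_sub_right hcW 1) hS0.le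
      linarith only [this, c6']
    refine far_sound h hS hT hV hk hk0 (by linarith only [hkle]) hH hW (fun hr1 hrp => ?_) c7
    refine (far_hi_cap p hp1 hr hr1 hS0.le ?_ (mul_nonneg hu.le (rn_nonneg rp)) hk0 hcW hW1 hkn0 ?_).trans
      (le_of_eq ?_)
    · rw [maj_re2 hp1]; exact mul_le_mul_of_nonneg_left hrp hu.le
    · rw [hτ] at hknle
      rw [show 1 / (2 * (p : ℝ)) = 1 / (p : ℝ) * (1 / 2) by field_simp, div_eq_mul_inv,
        div_eq_mul_inv (4 * (1 - y ^ 2))]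
      exact hknle
    · field_simp

/-- A slice that passes gives the inequality at its points below the top. -/
theorem sliceOk_sound {c2 : ℝ} (h : Hyp c p k y t r lam E) {w : Row} (hw : rowOk c.K w = true)
    (htl : rn w.tl ≤ tP p) (hth : tP p ≤ rn w.th) {top : ℕ} :
    ∀ (L : List (ℕ × Piece)) (lo : ℕ), sliceOk c w top L lo = true → rn lo ≤ xP p y →
      Target c.real p c2 y t r lam E ∨ rn top ≤ xP p y
  | [], lo, hs, hlo => Or.inr ((rn_le (Nat.le_of_ble_eq_true hs)).trans hlo)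
  | (hi, pc) :: L, lo, hs, hlo => by
    simp only [sliceOk, Bool.and_eq_true] at hs
    obtain ⟨⟨h1, h2⟩, h3⟩ := hs
    rcases le_total (xP p y) (rn hi) with hxi | hxi
    · exact Or.inl (boxOk_sound h hw htl hth hlo hxi (Nat.le_of_ble_eq_true h1) h2)
    · exact sliceOk_sound h hw htl hth L hi h3 hxi

end Vale.Agent.P237.All.Transport.Middle.Low
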