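import Vale.Agent.P237.All.Middle.ReduceTail

/-!
P237, every dimension, middle regime: the reduced inequality with the range of `σ` in the bulk, a
separate band in the tail, and a netted bound far from zero.
-/

noncomputable section

open Real Set

namespace Vale.Agent.P237.All.Transport.Middle.Low

/-- The density and the potential in the bulk. -/
theorem bulk_le2 (p : ℕ) (hp : 2 ≤ p) {g ell lam c2 A LA U LU y t r tt X S R L C Q M W κl κh P0 P1 E : ℝ}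
    (hy : y ∈ Ioo (0 : ℝ) 1) (hr : 0 < r) (hg : 0 ≤ g) (hg' : g ≤ 1)
    (htt : tt = 1 / ((p : ℝ) + 2)) (hX : X = ((p : ℝ) + 2) * y ^ 2) (hS : S = 1 - y ^ 2)
    (hRe : majRe p g 1 1 ell c2 A y = tt * R)
    (hLe : majLe p g 1 1 LA y * y * S = X * tt * L)
    (hCx : majCross p g 1 1 U y * y = C)
    (hQ : ((g + 1) * ((p : ℝ) + 4) + LU) * y ^ 2 = -Q)
    (hKw : majKw p g 1 1 ell c2 y (t - y) ≤ M * S) (hM : 0 ≤ M)
    (hband : (y - t) * X ≤ E * tt * S * y) (hP1 : 0 ≤ P1)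
    (hW : r ≤ 1 → (r ^ p)⁻¹ ≤ W) (hW1 : 1 ≤ W) (hκh0 : 0 ≤ κh) (hκl0 : 0 ≤ κl)
    (hκl : κl ≤ 4 * (1 + 1 / (p : ℝ)) - M * (1 / 2 + 1 / (2 * (p : ℝ))))
    (hκh : κh * W ≤ 4 * (1 + 1 / ((p : ℝ) * W)) - M * (W / (W + 1) + 1 / (2 * (p : ℝ))))
    (hhi : ∀ σ ψ : ℝ, 0 ≤ σ → σ ≤ (W - 1) / tt →
      S * (R * σ + C * σ * ψ - κh * S * σ ^ 2 - Q * ψ ^ 2) + X * (L + S * P1) * ψ ≤ P0)
    (hlo : ∀ σ ψ : ℝ, 0 ≤ σ → σ ≤ 1 / tt →
      S * (-R * σ + -C * σ * ψ - κl * S * σ ^ 2 - (Q + 4 * X * tt) * ψ ^ 2) +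
        X * (L + S * P1) * ψ ≤ P0) :
    density p 0 g 1 1 ell lam c2 y t r + semi y ^ (p + 1) *
        (LA * (t - y) + A * ((r ^ p)⁻¹ - 1) + LU * (t - y) ^ 2 +
          2 * U * (t - y) * ((r ^ p)⁻¹ - 1)) ≤
      semi y ^ (p + 1) * (majZero p g 1 c2 y + tt ^ 2 * ((P0 + E * P1 * S ^ 2) / S)) := by
  have hp0 : (0 : ℝ) < p := Nat.cast_pos.2 (by omega)
  have hy0 := hy.1
  have hy' : y ∈ Icc (-1 : ℝ) 1 := ⟨by linarith, hy.2.le⟩
  have hS0 : 0 < S := by rw [hS]; nlinarith only [hy.1, hy.2]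
  have htt0 : 0 < tt := by rw [htt]; positivity
  have hX0 : 0 < X := by rw [hX]; positivity
  have hKp : majKp 1 1 y (t - y) = 4 * S := by
    rw [hS, majKp, majC]; ring
  have hcC : (1 : ℝ) * majC 1 1 = 4 := by norm_num [majC]
  set σ := ((r ^ p)⁻¹ - 1) / tt with hσ
  set ψ := (t - y) / (y * tt) with hψ
  have es : (r ^ p)⁻¹ - 1 = tt * σ := by rw [hσ]; field_simp
  have eθ : t - y = y * tt * ψ := by rw [hψ]; field_simp
  have hσw : 0 ≤ (r ^ p)⁻¹ - 1 → 0 ≤ σ := fun h => div_nonneg h htt0.le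
  have hσw' : (r ^ p)⁻¹ - 1 ≤ 0 → σ ≤ 0 := fun h => div_nonpos_of_nonpos_of_nonneg h htt0.le
  clear_value σ ψ
  have hmul : 0 ≤ P1 * (X * ψ + E * S) := by
    refine mul_nonneg hP1 ?_
    have : 0 ≤ (y * tt) * (X * ψ + E * S) := by
      have e1 : (t - y) * X = y * tt * (X * ψ) := by rw [eθ]; ring
      linarith only [hband, e1]
    exact nonneg_of_mul_nonneg_right this (by positivity)
  -- both sides reduce to this
  have key : ∀ (q κ c : ℝ),
      c * y ^ 2 = -q →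
      S * (R * σ + C * σ * ψ - κ * S * σ ^ 2 - q * ψ ^ 2) + X * (L + S * P1) * ψ ≤ P0 →
      majLin p g 1 1 ell c2 A LA U y (t - y) ((r ^ p)⁻¹ - 1) - κ * S * ((r ^ p)⁻¹ - 1) ^ 2 +
        c * (t - y) ^ 2 ≤ tt ^ 2 * ((P0 + E * P1 * S ^ 2) / S) := by
    intro q κ c hc hb
    have hlin : majLin p g 1 1 ell c2 A LA U y (t - y) ((r ^ p)⁻¹ - 1) =
        majRe p g 1 1 ell c2 A y * ((r ^ p)⁻¹ - 1) + majLe p g 1 1 LA y * (t - y) +
          majCross p g 1 1 U y * (t - y) * ((r ^ p)⁻¹ - 1) := rfl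
    rw [hlin, hRe, es, eθ, ← mul_div_assoc, le_div_iff₀ hS0]
    have e : (tt * R * (tt * σ) + majLe p g 1 1 LA y * (y * tt * ψ) +
        majCross p g 1 1 U y * (y * tt * ψ) * (tt * σ) - κ * S * (tt * σ) ^ 2 +
        c * (y * tt * ψ) ^ 2) * S =
        tt ^ 2 * (S * (R * σ + C * σ * ψ - κ * S * σ ^ 2 - q * ψ ^ 2) + X * L * ψ) := by
      linear_combination (tt * ψ) * hLe + (tt ^ 2 * σ * ψ * S) * hCx + (tt ^ 2 * ψ ^ 2 * S) * hc
    rw [e]
    refine mul_le_mul_of_nonneg_left ?_ (sq_nonneg tt)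
    nlinarith only [hb, mul_nonneg hS0.le hmul]
  rcases le_total r 1 with hr1 | hr1
  · refine (density_maj_one_le p (by omega) (LA := LA) (A := A) (U := U) (LU := LU) hy' hr hr1 hg
      zero_le_one zero_le_one (by rw [hKp]; positivity)).trans ?_
    refine mul_le_mul_of_nonneg_left ?_ (pow_nonneg (Real.sqrt_nonneg _) _)
    have hv0 := pow_pos hr p
    have hw1 : 1 ≤ (r ^ p)⁻¹ := (one_le_inv₀ hv0).2 (pow_le_one₀ hr.le hr1)
    have hσ0 : 0 ≤ σ := hσw (by linarith only [hw1])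
    have hwW1 := hW hr1
    have hk := key Q κh _ hQ (hhi σ ψ hσ0 (by rw [le_div_iff₀ htt0]; linarith only [es, hwW1]))
    have hwW := hW hr1
    set w := (r ^ p)⁻¹ with hw
    rw [hKp]
    have hq : ((g + 1 * 1 ^ 2) * ((p : ℝ) + 4) + LU -
        1 * majC 1 1 * max 0 (1 - ((p : ℝ) + 1) / p * (w - 1))) * (t - y) ^ 2 ≤
        ((g + 1) * ((p : ℝ) + 4) + LU) * (t - y) ^ 2 := by
      refine mul_le_mul_of_nonneg_right ?_ (sq_nonneg _)
      have := le_max_left 0 (1 - ((p : ℝ) + 1) / p * (w - 1))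
      rw [hcC]; linarith only [this]
    have hK : κh * S * (w - 1) ^ 2 ≤ (4 * S * (1 + 1 / ((p : ℝ) * w)) -
        max 0 (majKw p g 1 1 ell c2 y (t - y)) * (w / (w + 1) + 1 / (2 * (p : ℝ)))) *
          ((w - 1) ^ 2 / w) := by
      have h1 : max 0 (majKw p g 1 1 ell c2 y (t - y)) ≤ M * S :=
        max_le (mul_nonneg hM hS0.le) hKw
      have hw0 : 0 < w := by linarith only [hw1]
      have h2 : w / (w + 1) ≤ W / (W + 1) := by
        rw [div_le_div_iff₀ (by positivity) (by positivity)]; linarith only [hwW]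
      have h3 : 1 / ((p : ℝ) * W) ≤ 1 / ((p : ℝ) * w) :=
        one_div_le_one_div_of_le (by positivity) (mul_le_mul_of_nonneg_left hwW hp0.le)
      have h4 : κh * w ≤ 4 * (1 + 1 / ((p : ℝ) * w)) - M * (w / (w + 1) + 1 / (2 * (p : ℝ))) := by
        have := mul_le_mul_of_nonneg_left h2 hM
        have := mul_le_mul_of_nonneg_left hwW hκh0
        linarith only [this, h3, hκh, mul_le_mul_of_nonneg_left h2 hM]
      have h5 := mul_le_mul_of_nonneg_right h1 (show 0 ≤ w / (w + 1) + 1 / (2 * (p : ℝ)) by positivity)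
      have h6 := mul_le_mul_of_nonneg_left h4 hS0.le
      rw [show κh * S * (w - 1) ^ 2 = S * (κh * w) * ((w - 1) ^ 2 / w) by field_simp]
      exact mul_le_mul_of_nonneg_right (by linarith only [h5, h6]) (by positivity)
    linarith only [hk, hq, hK]
  · refine (density_maj_le_one p hp (LA := LA) (A := A) (U := U) (LU := LU) hy' hr1 zero_le_one
      zero_le_one (by rw [hKp]; positivity) ?_).trans ?_
    · rw [hcC]
      have hp2 : (2 : ℝ) ≤ p := by exact_mod_cast hp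
      nlinarith only [hg', hp2]
    refine mul_le_mul_of_nonneg_left ?_ (pow_nonneg (Real.sqrt_nonneg _) _)
    have hv1 : 1 ≤ r ^ p := one_le_pow₀ hr1
    have hw1 : (r ^ p)⁻¹ ≤ 1 := inv_le_one_of_one_le₀ hv1
    have hw0 : 0 < (r ^ p)⁻¹ := inv_pos.2 (by linarith only [hv1])
    have hσ0 : σ ≤ 0 := hσw' (by linarith only [hw1])
    have hb := hlo (-σ) ψ (neg_nonneg.2 hσ0) (by rw [le_div_iff₀ htt0]; linarith only [es, hw0])
    have hk := key (Q + 4 * X * tt) κl ((g + 1) * ((p : ℝ) + 4) + LU - 4)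
      (by rw [hX, htt]; field_simp; linear_combination hQ) (by linarith only [hb])
    have hlo' := excessLow_le p hp (Real.sqrt_nonneg ((r ^ p)⁻¹)) (Real.sqrt_le_one.2 hw1)
    set w := (r ^ p)⁻¹ with hw
    rw [hKp]
    have hel : 0 ≤ excessLow p (√w) := by
      have hp2 : (2 : ℝ) ≤ p := by exact_mod_cast hp
      have : (0 : ℝ) ≤ 1 - 2 / p := by rw [sub_nonneg, div_le_one hp0]; exact hp2
      unfold excessLow; positivity
    have hK : κl * S * (w - 1) ^ 2 ≤ (4 * S * (1 + 1 / (p : ℝ)) -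
        max 0 (majKw p g 1 1 ell c2 y (t - y)) * excessLow p (√w)) * ((w - 1) ^ 2 / w) := by
      have h1 := mul_le_mul (max_le (mul_nonneg hM hS0.le) hKw) hlo' hel (mul_nonneg hM hS0.le)
      have h6 := mul_le_mul_of_nonneg_left hκl hS0.le
      refine (mul_le_mul_of_nonneg_left (le_div_self (sq_nonneg _) hw0 hw1)
        (mul_nonneg hκl0 hS0.le)).trans (mul_le_mul_of_nonneg_right ?_ (by positivity))
      linarith only [h1, h6]
    rw [hcC, show (g + 1 * (1 : ℝ) ^ 2) = g + 1 by ring]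
    linarith only [hk, hK]

/-- The density and the potential in the tail. -/
theorem tail_le2 (p : ℕ) (hp : 2 ≤ p)
    {g ell lam c2 A LA U LU y t r tt X S R L C Q W ℓ Kb κT γ P0 P1 E E' : ℝ}
    (hy : y ∈ Ioo (0 : ℝ) 1) (ht : t ∈ Ioo (0 : ℝ) 1) (hr : 0 < r) (hg : 0 ≤ g) (hg' : g ≤ 1)
    (hlam : 1 ≤ lam) (hridge : semi t ≤ lam * semi y * r) (hE : 0 ≤ E) (hE' : 0 ≤ E')
    (hεL : (p : ℝ) * log lam ≤ E * tt)
    (htt : tt = 1 / ((p : ℝ) + 2)) (hX : X = ((p : ℝ) + 2) * y ^ 2) (hS : S = 1 - y ^ 2)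
    (hRe : majRe p g 1 1 ell c2 A y = tt * R)
    (hLe : majLe p g 1 1 LA y * y * S = X * tt * L)
    (hCx : majCross p g 1 1 U y * y = C)
    (hQ : ((g + 1) * ((p : ℝ) + 4) + LU) * y ^ 2 = -Q)
    (hKb : majLr p g 1 1 ell c2 y / p + majX p g 1 1 y * (t - y) / p ≤ Kb * S) (hKb0 : 0 ≤ Kb)
    (hband : (y - t) * X ≤ E' * tt * S * y)
    (hW : r ≤ 1 → (r ^ p)⁻¹ ≤ W) (hW1 : 1 ≤ W) (hWℓ : log W ≤ ℓ)
    (hR : 0 ≤ R) (hγ : 0 ≤ γ) (hγC : γ * X * tt ≤ C)
    (h1 : L + R * ((W + 1) / 2) * (1 - 2 * tt + 2 * ℓ * tt) + γ * (W - 1) * S ≤ 0)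
    (h2 : 0 ≤ Q * S - X * (1 / 2 - tt + ℓ * tt) * (tt * (R * ((W + 1) / 2))))
    (hκT : κT ≤ 4 / (W + 1) - Kb * (W / (W + 1) + 1 / (2 * (p : ℝ)))) (hκT0 : 0 ≤ κT) (hKb4 : Kb < 4)
    (h4 : (C - γ * X * tt) ^ 2 * W ≤
      4 * κT * (Q * S - X * (1 / 2 - tt + ℓ * tt) * (tt * (R * ((W + 1) / 2)))))
    (h5 : R * ((W + 1) / 2) * E * S - L * E' * S + C ^ 2 * E' ^ 2 * S ^ 2 / (2 * (4 - Kb) * X ^ 2) ≤
      P0 + E * P1 * S ^ 2) :
    density p 0 g 1 1 ell lam c2 y t r + semi y ^ (p + 1) *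
        (LA * (t - y) + A * ((r ^ p)⁻¹ - 1) + LU * (t - y) ^ 2 +
          2 * U * (t - y) * ((r ^ p)⁻¹ - 1)) ≤
      semi y ^ (p + 1) * (majZero p g 1 c2 y + tt ^ 2 * ((P0 + E * P1 * S ^ 2) / S)) := by
  refine (density_excess_le p (by omega) ⟨by linarith [hy.1], hy.2.le⟩ hr hg hg' hp hKb).trans
    (mul_le_mul_of_nonneg_left (add_le_add le_rfl ?_) (pow_nonneg (Real.sqrt_nonneg _) _))
  rw [← hS]
  have hp0 : (0 : ℝ) < p := Nat.cast_pos.2 (by omega)
  have hy0 := hy.1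
  have hS0 : 0 < S := by rw [hS]; nlinarith only [hy.1, hy.2]
  have htt0 : 0 < tt := by rw [htt]; positivity
  have http : tt * ((p : ℝ) + 2) = 1 := by rw [htt]; field_simp
  have hX0 : 0 < X := by rw [hX]; positivity
  have hyX : y ^ 2 = X * tt := by rw [hX]; linear_combination (-y ^ 2) * http
  have hℓ0 : 0 ≤ ℓ := (Real.log_nonneg hW1).trans hWℓ
  set ρ := (W + 1) / 2 with hρ
  have hρ1 : 1 ≤ ρ := by rw [hρ]; linarith only [hW1]
  set Re := majRe p g 1 1 ell c2 A y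
  set Le := majLe p g 1 1 LA y
  set Cx := majCross p g 1 1 U y
  set Q0 := (g + 1) * ((p : ℝ) + 4) + LU
  set w := (r ^ p)⁻¹ with hw
  set η := E' * tt * S * y / X with hη
  have hη0 : 0 ≤ η := by rw [hη]; positivity
  have hθ : -η ≤ t - y := by
    rw [hη, neg_le, neg_sub, le_div_iff₀ hX0]; exact hband
  have hL0 : L ≤ 0 := by
    have : 0 ≤ R * ρ * (1 - 2 * tt + 2 * ℓ * tt) := by
      have : 0 ≤ 1 - 2 * tt + 2 * ℓ * tt := by
        have : tt * 2 ≤ 1 := by nlinarith only [http, htt0, hp0]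
        nlinarith only [this, hℓ0, htt0]
      positivity
    have : 0 ≤ γ * (W - 1) * S := mul_nonneg (mul_nonneg hγ (by linarith)) hS0.le
    linarith
  have hLe0 : Le ≤ 0 := by
    have : Le * (y * S) ≤ 0 := by
      rw [← mul_assoc, hLe]; exact mul_nonpos_of_nonneg_of_nonpos (by positivity) hL0
    exact nonpos_of_mul_nonpos_left this (by positivity)
  have hC0 : 0 ≤ C := le_trans (by positivity) hγC
  have hCx0 : 0 ≤ Cx := nonneg_of_mul_nonneg_left (hCx ▸ hC0) hy0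
  have hRe0 : 0 ≤ Re := by rw [show Re = tt * R from hRe]; positivity
  have hLη : |Le| * η = -(tt ^ 2 * L * E') := by
    have e : Le = X * tt * L / (y * S) := by
      rw [eq_div_iff (by positivity), ← mul_assoc, hLe]
    rw [abs_of_nonpos hLe0, hη, e]; field_simp
  have hεT : 0 ≤ E * tt := by positivity
  have htarget : ρ * Re * (E * tt) + |Le| * η +
      Cx ^ 2 * η ^ 2 / (2 * ((4 - Kb) * S)) ≤ tt ^ 2 * ((P0 + E * P1 * S ^ 2) / S) := by
    rw [hLη, show Re = tt * R from hRe, show Cx = C / y by rw [eq_div_iff hy0.ne', hCx], hη,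
      ← mul_div_assoc, le_div_iff₀ hS0]
    refine le_trans (le_of_eq ?_) (mul_le_mul_of_nonneg_left h5 (sq_nonneg tt))
    have : 4 - Kb ≠ 0 := by linarith
    field_simp
    ring
  refine le_trans ?_ htarget
  rcases le_total 1 r with hr1 | hr1
  · have hs : w - 1 ≤ 0 := by linarith [inv_le_one_of_one_le₀ (one_le_pow₀ hr1 (n := p))]
    have h := tail_low (θ := t - y) (εL := E * tt) hRe0 hs hLe0 hCx0
      (mul_pos (sub_pos.2 hKb4) hS0) hθ hη0 hεT (pow_excess_ge_of_one_le p hp hr1)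
    have h' := mul_le_mul_of_nonneg_left (excess_le_deficit p hr1) (mul_nonneg hKb0 hS0.le)
    have h'' : Q0 * (t - y) ^ 2 ≤ 0 := by
      refine mul_nonpos_of_nonpos_of_nonneg ?_ (sq_nonneg _)
      have : 0 ≤ X * (1 / 2 - tt + ℓ * tt) * (tt * (R * ρ)) := by
        have : 0 ≤ 1 / 2 - tt + ℓ * tt := by nlinarith only [http, htt0, hp0, hℓ0]
        positivity
      have hQ0 : 0 ≤ Q * S := by linarith only [h2, this]
      have : Q0 * y ^ 2 ≤ 0 := by
        rw [hQ, neg_nonpos]; exact nonneg_of_mul_nonneg_left hQ0 hS0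
      exact nonpos_of_mul_nonpos_left this (by positivity)
    have h3 : Re * (E * tt) ≤ ρ * Re * (E * tt) :=
      mul_le_mul_of_nonneg_right (le_mul_of_one_le_left hRe0 hρ1) hεT
    linarith only [h, h', h'', h3]
  · have hv0 : 0 < r ^ p := pow_pos hr p
    have hw1 : 1 ≤ w := (one_le_inv₀ hv0).2 (pow_le_one₀ hr.le hr1)
    have hwW := hW hr1
    have hL : log w = -((p : ℝ) * log r) := by rw [hw, Real.log_inv, Real.log_pow]
    have hℓ : -((p : ℝ) * log r) ≤ ℓ := by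
      rw [← hL]; exact (Real.log_le_log (by linarith only [hw1]) hwW).trans hWℓ
    obtain ⟨hLp, hLn⟩ := ridge_theta p hy ht hr (by linarith only [hlam]) hridge hεL hεT hℓ hℓ0
    rw [← hL] at hLp hLn
    have hs : 0 ≤ w - 1 := sub_nonneg.2 hw1
    have hA : Re * (w - 1) ≤ ρ * Re * log w := by
      rw [mul_comm ρ, mul_assoc]
      exact mul_le_mul_of_nonneg_left (chord_log hw1 hwW) hRe0
    have hB : 4 * S / (W + 1) * ((w - 1) ^ 2 / w) ≤
        4 * S * (r ^ (p + 1) - 1 - ((p : ℝ) + 1) * (r - 1)) := by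
      rw [div_mul_eq_mul_div, mul_div_assoc]
      refine mul_le_mul_of_nonneg_left (le_trans ?_ (pow_excess_ge p (by omega) hr.le hr1))
        (by positivity)
      have e : (w - 1) ^ 2 / w / (w + 1) = (1 - r ^ p) ^ 2 / (1 + r ^ p) := by
        rw [hw]; field_simp
      rw [← e]
      exact div_le_div_of_nonneg_left (by positivity) (by positivity) (by linarith only [hwW])
    have hWe : w - 1 + (p : ℝ) * (r - 1) ≤ (W / (W + 1) + 1 / (2 * (p : ℝ))) * ((w - 1) ^ 2 / w) := by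
      refine (excess_le_one_le p (by omega) hr hr1).trans
        (mul_le_mul_of_nonneg_right (add_le_add_left ?_ _) (by positivity))
      rw [div_le_div_iff₀ (by positivity) (by positivity)]; linarith only [hwW]
    have hB' := mul_le_mul_of_nonneg_left hWe (mul_nonneg hKb0 hS0.le)
    have hq := mul_le_mul_of_nonneg_left hκT hS0.le
    have hq' := mul_le_mul_of_nonneg_right hq (show 0 ≤ (w - 1) ^ 2 / w by positivity)
    have hz : Kb * S * (w - 1 + (p : ℝ) * (r - 1)) -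
        4 * S * (r ^ (p + 1) - 1 - ((p : ℝ) + 1) * (r - 1)) ≤ -(κT * S * ((w - 1) ^ 2 / w)) := by
      generalize (w - 1) ^ 2 / w = z at hB hB' hq'
      have e0 : S * (4 / (W + 1) - Kb * (W / (W + 1) + 1 / (2 * (p : ℝ)))) * z =
          4 * S / (W + 1) * z - Kb * S * ((W / (W + 1) + 1 / (2 * (p : ℝ))) * z) := by ring
      linarith only [hB, hB', hq', e0, mul_comm κT S]
    have hC' : κT * S * ((w - 1) ^ 2 / W) ≤ κT * S * ((w - 1) ^ 2 / w) :=
      mul_le_mul_of_nonneg_left (div_le_div_of_nonneg_left (sq_nonneg _) (by linarith only [hw1]) hwW)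
        (by positivity)
    have hrest : 0 ≤ Cx ^ 2 * η ^ 2 / (2 * ((4 - Kb) * S)) :=
      div_nonneg (by positivity) (by nlinarith only [hKb4, hS0])
    have hρR : 0 ≤ ρ * Re := by positivity
    rcases le_total 0 (t - y) with h | h
    · have e1 := mul_le_mul_of_nonneg_left (hLp h) hρR
      set Cl := γ * X * tt / y with hCl
      have hlinθ : (Le + ((p : ℝ) + 2 * ℓ) * y / (1 - y ^ 2) * (ρ * Re) + Cl * (W - 1)) * (t - y) ≤ 0 := by
        refine mul_nonpos_of_nonpos_of_nonneg ?_ h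
        refine nonpos_of_mul_nonpos_left ?_ (show 0 < y * S by positivity)
        have e : (Le + ((p : ℝ) + 2 * ℓ) * y / (1 - y ^ 2) * (ρ * Re) + Cl * (W - 1)) * (y * S) =
            X * tt * (L + R * ρ * (1 - 2 * tt + 2 * ℓ * tt) + γ * (W - 1) * S) := by
          rw [← hS, hCl, show Re = tt * R from hRe]
          have e1' : (Le + ((p : ℝ) + 2 * ℓ) * y / S * (ρ * (tt * R)) + γ * X * tt / y * (W - 1)) * (y * S) =
              Le * y * S + ((p : ℝ) + 2 * ℓ) * y ^ 2 * (ρ * (tt * R)) + γ * X * tt * (W - 1) * S := by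
            field_simp
          rw [e1']
          linear_combination hLe + (((p : ℝ) + 2 * ℓ) * ρ * tt * R) * hyX + (X * tt * ρ * R) * http
        rw [e]
        exact mul_nonpos_of_nonneg_of_nonpos (by positivity) h1
      have e2 := quad_form_nonpos (a := w - 1) (b := t - y) (C := Cx - Cl) (W := W)
        (K := κT * S) (q := -(Q0 + ((p : ℝ) / 2 + ℓ) / (1 - y ^ 2) * (ρ * Re)))
        (by positivity) ?_ (by linarith only [hW1]) ?_
      · have e5 : Cl * (t - y) * (w - 1) ≤ Cl * (t - y) * (W - 1) := by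
          refine mul_le_mul_of_nonneg_left (by linarith only [hwW]) (mul_nonneg ?_ h)
          rw [hCl]; positivity
        have e4 : 0 ≤ |Le| * η := by positivity
        linarith only [hA, hz, hC', e1, e2, hlinθ, e5, e4, hrest]
      · rw [neg_nonneg]
        refine nonpos_of_mul_nonpos_left ?_ (show 0 < y ^ 2 * S by positivity)
        refine le_trans (le_of_eq ?_) (neg_nonpos.2 h2)
        rw [← hS, show Re = tt * R from hRe]
        have e1' : (Q0 + ((p : ℝ) / 2 + ℓ) / S * (ρ * (tt * R))) * (y ^ 2 * S) =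
            Q0 * y ^ 2 * S + ((p : ℝ) / 2 + ℓ) * y ^ 2 * (ρ * (tt * R)) := by field_simp
        rw [e1']
        linear_combination S * hQ + (((p : ℝ) / 2 + ℓ) * ρ * tt * R) * hyX + (X * tt * ρ * R / 2) * http
      · refine le_of_mul_le_mul_right ?_ (show 0 < y ^ 2 by positivity)
        refine le_trans (le_of_eq ?_) (h4.trans (le_of_eq ?_))
        · rw [hCl, ← hCx]; field_simp
        · rw [← hS, show Re = tt * R from hRe]
          have e1' : 4 * (κT * S) * -(Q0 + ((p : ℝ) / 2 + ℓ) / S * (ρ * (tt * R))) * y ^ 2 =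
              -(4 * κT) * (Q0 * y ^ 2 * S + ((p : ℝ) / 2 + ℓ) * y ^ 2 * (ρ * (tt * R))) := by
            field_simp
          rw [e1']
          linear_combination (4 * κT * S) * hQ + (4 * κT * ((p : ℝ) / 2 + ℓ) * ρ * tt * R) * hyX +
            (4 * κT * X * tt * ρ * R / 2) * http
    · have e1 := mul_le_mul_of_nonneg_left (hLn h) hρR
      have e2 : Cx * (t - y) * (w - 1) ≤ 0 :=
        mul_nonpos_of_nonpos_of_nonneg (mul_nonpos_of_nonneg_of_nonpos hCx0 h) hs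
      have e3 : Q0 * (t - y) ^ 2 ≤ 0 := by
        refine mul_nonpos_of_nonpos_of_nonneg ?_ (sq_nonneg _)
        have : 0 ≤ X * (1 / 2 - tt + ℓ * tt) * (tt * (R * ρ)) := by
          have : 0 ≤ 1 / 2 - tt + ℓ * tt := by nlinarith only [http, htt0, hp0, hℓ0]
          positivity
        have hQ0 : 0 ≤ Q * S := by linarith only [h2, this]
        have : Q0 * y ^ 2 ≤ 0 := by
          rw [hQ, neg_nonpos]; exact nonneg_of_mul_nonneg_left hQ0 hS0
        exact nonpos_of_mul_nonpos_left this (by positivity)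
      have e4 : Le * (t - y) ≤ |Le| * η := by
        rw [abs_of_nonpos hLe0, neg_mul, ← mul_neg]
        exact mul_le_mul_of_nonpos_left hθ hLe0
      have e5 : 0 ≤ κT * S * ((w - 1) ^ 2 / W) := by
        have : 0 < W := by linarith only [hW1]
        positivity
      linarith only [hA, hz, hC', e1, e2, e3, e4, e5, hrest]

/-- The discriminant of one side. -/
def sideD (C S Q κ : ℝ) : ℝ := 4 * κ * S * Q - C ^ 2

/-- The slope of one side at zero. -/
def sideM (R C B S Q : ℝ) : ℝ := 2 * Q * R * S + C * B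

/-- One side on a range of `σ`: the slope is negative, or the vertex is below, or the end is. -/
theorem side_range {R C B S Q κ P x1 σ ψ : ℝ} (hS : 0 < S) (hQ : 0 < Q) (hσ : 0 ≤ σ) (hσ1 : S * σ ≤ x1)
    (h0 : B ^ 2 ≤ 4 * Q * S * P)
    (h : (0 ≤ sideD C S Q κ ∧ sideM R C B S Q ≤ 0) ∨
      (0 < sideD C S Q κ ∧ S * Q * R ^ 2 + C * R * B + κ * B ^ 2 ≤ sideD C S Q κ * P) ∨
      ((sideD C S Q κ ≤ 0 ∨ sideD C S Q κ * x1 ≤ sideM R C B S Q ∨ sideM R C B S Q ≤ 0) ∧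
        B ^ 2 + 2 * x1 * sideM R C B S Q - sideD C S Q κ * x1 ^ 2 ≤ 4 * Q * S * P)) :
    S * (R * σ + C * σ * ψ - κ * S * σ ^ 2 - Q * ψ ^ 2) + B * ψ ≤ P := by
  set D := sideD C S Q κ with hD
  set M := sideM R C B S Q with hM
  have hsq : 4 * Q * S * (S * (R * σ + C * σ * ψ - κ * S * σ ^ 2 - Q * ψ ^ 2) + B * ψ) ≤
      B ^ 2 + 2 * (S * σ) * M - D * (S * σ) ^ 2 := by
    rw [hD, hM, sideD, sideM]; nlinarith [sq_nonneg (2 * Q * S * ψ - B - C * S * σ)]
  have hx : 0 ≤ S * σ := mul_nonneg hS.le hσ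
  refine le_of_mul_le_mul_left (hsq.trans ?_) (show 0 < 4 * Q * S by positivity)
  rcases h with ⟨hD0, h1⟩ | ⟨hD0, h1⟩ | ⟨h1, he⟩
  · nlinarith [mul_nonpos_of_nonneg_of_nonpos hx h1, mul_nonneg hD0 (sq_nonneg (S * σ))]
  · refine le_of_mul_le_mul_left ?_ hD0
    have e : D * B ^ 2 + M ^ 2 = 4 * Q * S * (S * Q * R ^ 2 + C * R * B + κ * B ^ 2) := by
      rw [hD, hM, sideD, sideM]; ring
    nlinarith [sq_nonneg (D * (S * σ) - M),
      mul_le_mul_of_nonneg_left h1 (show 0 ≤ 4 * Q * S by positivity)]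
  · rcases lt_or_ge 0 D with hD0 | hD0
    · rcases h1.resolve_left (not_le.2 hD0) with h2 | h2
      · nlinarith [mul_nonneg (sub_nonneg.2 hσ1) (sub_nonneg.2 h2),
          mul_nonneg (sub_nonneg.2 hσ1) (mul_nonneg hD0.le (sub_nonneg.2 hσ1))]
      · nlinarith [mul_nonpos_of_nonneg_of_nonpos hx h2, mul_nonneg hD0.le (sq_nonneg (S * σ))]
    · rcases eq_or_lt_of_le (hx.trans hσ1) with e | e
      · have : S * σ = 0 := le_antisymm (e ▸ hσ1) hx
        rw [this]; nlinarith only [h0]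
      · refine le_of_mul_le_mul_left ?_ e
        nlinarith [mul_le_mul_of_nonneg_left h0 (sub_nonneg.2 hσ1), mul_le_mul_of_nonneg_left he hx,
          mul_nonpos_of_nonneg_of_nonpos (mul_nonneg (mul_nonneg e.le hx) (sub_nonneg.2 hσ1)) hD0]

/-- The density and the potential far from zero: the two halves are bounded by `H` and `Lo`. -/
theorem far_le2 (p : ℕ) (hp : 2 ≤ p)
    {g ell lam c2 A LA U LU y t r tt X S L C Q wd k H Lo P0 P1 E : ℝ}
    (hy : y ∈ Ioo (0 : ℝ) 1) (hr : 0 < r) (hg : 0 ≤ g) (hg' : g ≤ 1) (hE : 0 ≤ E)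
    (htt : tt = 1 / ((p : ℝ) + 2)) (hX : X = ((p : ℝ) + 2) * y ^ 2) (hS : S = 1 - y ^ 2)
    (hLe : majLe p g 1 1 LA y * y * S = X * tt * L)
    (hCx : majCross p g 1 1 U y * y = C)
    (hQ : ((g + 1) * ((p : ℝ) + 4) + LU) * y ^ 2 = -Q)
    (hk : majLr p g 1 1 ell c2 y / p + majX p g 1 1 y * (t - y) / p ≤ k)
    (hband : (y - t) * X ≤ E * tt * S * y) (hW : r ≤ 1 → ((r ^ p)⁻¹ - 1) * S ≤ wd)
    (hwd : 0 ≤ wd) (hC : 0 ≤ C) (hQ0 : 0 ≤ Q) (h1 : X * tt * L + C * wd ≤ 0)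
    (hH : r ≤ 1 → (majRe p g 1 1 ell c2 A y * ((r ^ p)⁻¹ - 1) +
      k * ((r ^ p)⁻¹ - 1 + p * (r - 1)) -
      4 * S * (r ^ (p + 1) - 1 - ((p : ℝ) + 1) * (r - 1))) * S ≤ H)
    (hLo : 1 ≤ r → (majRe p g 1 1 ell c2 A y * ((r ^ p)⁻¹ - 1) +
      majCross p g 1 1 U y * (t - y) * ((r ^ p)⁻¹ - 1) +
      k * ((r ^ p)⁻¹ - 1 + p * (r - 1)) -
      4 * S * (r ^ (p + 1) - 1 - ((p : ℝ) + 1) * (r - 1))) * S ≤ Lo)
    (h5 : H - tt ^ 2 * L * E * S ≤ tt ^ 2 * (P0 + E * P1 * S ^ 2))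
    (h6 : Lo - tt ^ 2 * L * E * S ≤ tt ^ 2 * (P0 + E * P1 * S ^ 2)) :
    density p 0 g 1 1 ell lam c2 y t r + semi y ^ (p + 1) *
        (LA * (t - y) + A * ((r ^ p)⁻¹ - 1) + LU * (t - y) ^ 2 +
          2 * U * (t - y) * ((r ^ p)⁻¹ - 1)) ≤
      semi y ^ (p + 1) * (majZero p g 1 c2 y + tt ^ 2 * ((P0 + E * P1 * S ^ 2) / S)) := by
  refine (density_excess_le p (by omega) ⟨by linarith [hy.1], hy.2.le⟩ hr hg hg' hp hk).trans
    (mul_le_mul_of_nonneg_left (add_le_add le_rfl ?_) (pow_nonneg (Real.sqrt_nonneg _) _))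
  rw [← hS]
  have hy0 := hy.1
  have hS0 : 0 < S := by rw [hS]; nlinarith only [hy.1, hy.2]
  have htt0 : 0 < tt := by rw [htt]; positivity
  have hX0 : 0 < X := by rw [hX]; positivity
  set Le := majLe p g 1 1 LA y
  set Cx := majCross p g 1 1 U y
  set Q0 := (g + 1) * ((p : ℝ) + 4) + LU
  set w := (r ^ p)⁻¹ with hw
  set η := E * tt * S * y / X with hη
  have hθ : -η ≤ t - y := by
    rw [hη, neg_le, neg_sub, le_div_iff₀ hX0]; exact hband
  have hL0 : L ≤ 0 := by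
    have : 0 ≤ C * wd := mul_nonneg hC hwd
    exact nonpos_of_mul_nonpos_right (a := X * tt) (by linarith only [this, h1]) (by positivity)
  have hLe0 : Le ≤ 0 := by
    have : Le * (y * S) ≤ 0 := by
      rw [← mul_assoc, hLe]; exact mul_nonpos_of_nonneg_of_nonpos (by positivity) hL0
    exact nonpos_of_mul_nonpos_left this (by positivity)
  have hCx0 : 0 ≤ Cx := nonneg_of_mul_nonneg_left (hCx ▸ hC) hy0
  have hQ' : Q0 * (t - y) ^ 2 ≤ 0 := by
    refine mul_nonpos_of_nonpos_of_nonneg ?_ (sq_nonneg _)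
    exact nonpos_of_mul_nonpos_left (show Q0 * y ^ 2 ≤ 0 by rw [hQ]; linarith only [hQ0]) (by positivity)
  rw [← mul_div_assoc, le_div_iff₀ hS0]
  have hη0 : 0 ≤ η := by rw [hη]; positivity
  have e1 : -(tt ^ 2 * L * E * S) = |Le| * η * S := by
    have e : Le = X * tt * L / (y * S) := by
      rw [eq_div_iff (by positivity), ← mul_assoc, hLe]
    rw [abs_of_nonpos hLe0, hη, e]; field_simp
  have hlt : Le * (t - y) ≤ |Le| * η := by
    rw [abs_of_nonpos hLe0, neg_mul, ← mul_neg]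
    exact mul_le_mul_of_nonpos_left hθ hLe0
  have hlt' := mul_le_mul_of_nonneg_right hlt hS0.le
  have hQ'' := mul_nonpos_of_nonpos_of_nonneg hQ' hS0.le
  rcases le_total r 1 with hr1 | hr1
  · have hw1 : 1 ≤ w := (one_le_inv₀ (pow_pos hr p)).2 (pow_le_one₀ hr.le hr1)
    have hH' := hH hr1
    rcases le_total 0 (t - y) with h | h
    · have h3 : (Le + Cx * (w - 1)) * (t - y) ≤ 0 := by
        refine mul_nonpos_of_nonpos_of_nonneg ?_ h
        refine nonpos_of_mul_nonpos_left ?_ (show 0 < y * S by positivity)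
        have e : (Le + Cx * (w - 1)) * (y * S) = X * tt * L + C * ((w - 1) * S) := by
          rw [← hLe, ← hCx]; ring
        rw [e]
        linarith only [h1, mul_le_mul_of_nonneg_left (hW hr1) hC]
      have h3' := mul_nonpos_of_nonpos_of_nonneg h3 hS0.le
      have h4 : 0 ≤ |Le| * η * S := by positivity
      linarith only [hH', h5, e1, h3', h4, hQ'']
    · have h3 : Cx * (t - y) * (w - 1) ≤ 0 :=
        mul_nonpos_of_nonpos_of_nonneg (mul_nonpos_of_nonneg_of_nonpos hCx0 h) (by linarith only [hw1])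
      have h3' := mul_nonpos_of_nonpos_of_nonneg h3 hS0.le
      linarith only [hH', h5, e1, h3', hlt', hQ'']
  · linarith only [hLo hr1, h6, e1, hlt', hQ'']

/-- The half `r ≤ 1` through a bound on `(w - 1) S`. -/
theorem far_hi_wd (p : ℕ) {r tt Re Rp k S wd : ℝ} (hr : 0 < r) (hr1 : r ≤ 1) (hS : 0 ≤ S)
    (hRe : Re ≤ tt * Rp) (hRp : 0 ≤ tt * Rp) (hk : 0 ≤ k) (hW : ((r ^ p)⁻¹ - 1) * S ≤ wd) :
    (Re * ((r ^ p)⁻¹ - 1) + k * ((r ^ p)⁻¹ - 1 + p * (r - 1)) -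
      4 * S * (r ^ (p + 1) - 1 - ((p : ℝ) + 1) * (r - 1))) * S ≤ (tt * Rp + k) * wd := by
  have hw1 : 1 ≤ (r ^ p)⁻¹ := (one_le_inv₀ (pow_pos hr p)).2 (pow_le_one₀ hr.le hr1)
  have hP : 0 ≤ r ^ (p + 1) - 1 - ((p : ℝ) + 1) * (r - 1) := by
    have := one_add_mul_le_pow (a := r - 1) (by linarith) (p + 1)
    rw [add_sub_cancel] at this; push_cast at this; linarith
  have h1 := mul_le_mul_of_nonneg_right hRe (show 0 ≤ (r ^ p)⁻¹ - 1 by linarith)
  have h2 : k * ((r ^ p)⁻¹ - 1 + p * (r - 1)) ≤ k * ((r ^ p)⁻¹ - 1) := by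
    refine mul_le_mul_of_nonneg_left ?_ hk
    have := mul_nonpos_of_nonneg_of_nonpos (Nat.cast_nonneg (α := ℝ) p) (show r - 1 ≤ 0 by linarith)
    linarith only [this]
  have h3 : 0 ≤ 4 * S * (r ^ (p + 1) - 1 - ((p : ℝ) + 1) * (r - 1)) := by positivity
  have h4 := mul_le_mul_of_nonneg_left hW (add_nonneg hRp hk)
  have h5 := mul_le_mul_of_nonneg_right
    (show Re * ((r ^ p)⁻¹ - 1) + k * ((r ^ p)⁻¹ - 1 + p * (r - 1)) -
      4 * S * (r ^ (p + 1) - 1 - ((p : ℝ) + 1) * (r - 1)) ≤ (tt * Rp + k) * ((r ^ p)⁻¹ - 1) by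
      linarith only [h1, h2, h3]) hS
  linarith only [h4, h5]

/-- The half `r ≤ 1` through a cap on `w`. -/
theorem far_hi_cap (p : ℕ) (hp : 1 ≤ p) {r tt Re Rp k S W kn : ℝ} (hr : 0 < r) (hr1 : r ≤ 1) (hS : 0 ≤ S)
    (hRe : Re ≤ tt * Rp) (hRp : 0 ≤ tt * Rp) (hk : 0 ≤ k) (hW : (r ^ p)⁻¹ ≤ W) (hW1 : 1 ≤ W)
    (hkn0 : 0 ≤ kn) (hkn : k * (W / (W + 1) + 1 / (2 * (p : ℝ))) - 4 * S / (W + 1) ≤ kn) :
    (Re * ((r ^ p)⁻¹ - 1) + k * ((r ^ p)⁻¹ - 1 + p * (r - 1)) -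
      4 * S * (r ^ (p + 1) - 1 - ((p : ℝ) + 1) * (r - 1))) * S ≤
        (tt * Rp * (W - 1) + kn * ((W - 1) ^ 2 / W)) * S := by
  refine mul_le_mul_of_nonneg_right ?_ hS
  have hw0 : 0 < r ^ p := pow_pos hr p
  set w := (r ^ p)⁻¹ with hw
  have hw1 : 1 ≤ w := (one_le_inv₀ hw0).2 (pow_le_one₀ hr.le hr1)
  have h1 : Re * (w - 1) ≤ tt * Rp * (W - 1) :=
    (mul_le_mul_of_nonneg_right hRe (sub_nonneg.2 hw1)).trans
      (mul_le_mul_of_nonneg_left (by linarith only [hW]) hRp)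
  have hB : 4 * S / (W + 1) * ((w - 1) ^ 2 / w) ≤
      4 * S * (r ^ (p + 1) - 1 - ((p : ℝ) + 1) * (r - 1)) := by
    rw [div_mul_eq_mul_div, mul_div_assoc]
    refine mul_le_mul_of_nonneg_left (le_trans ?_ (pow_excess_ge p hp hr.le hr1)) (by positivity)
    have e : (w - 1) ^ 2 / w / (w + 1) = (1 - r ^ p) ^ 2 / (1 + r ^ p) := by
      rw [hw]; field_simp
    rw [← e]
    exact div_le_div_of_nonneg_left (by positivity) (by positivity) (by linarith only [hW])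
  have hWe : w - 1 + (p : ℝ) * (r - 1) ≤ (W / (W + 1) + 1 / (2 * (p : ℝ))) * ((w - 1) ^ 2 / w) := by
    refine (excess_le_one_le p hp hr hr1).trans
      (mul_le_mul_of_nonneg_right (add_le_add_left ?_ _) (by positivity))
    rw [div_le_div_iff₀ (by positivity) (by positivity)]; linarith only [hW]
  have hB' := mul_le_mul_of_nonneg_left hWe hk
  have hz : (w - 1) ^ 2 / w ≤ (W - 1) ^ 2 / W := by
    rw [div_le_div_iff₀ (by linarith) (by linarith)]
    nlinarith [mul_nonneg (sub_nonneg.2 hW) (show 0 ≤ w * W - 1 by nlinarith only [hw1, hW1])]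
  have h2 := mul_le_mul_of_nonneg_right hkn (show 0 ≤ (w - 1) ^ 2 / w by positivity)
  have h3 := mul_le_mul_of_nonneg_left hz hkn0
  generalize (w - 1) ^ 2 / w = z at hB hB' h2 h3
  linarith only [h1, hB, hB', h2, h3]

/-- The cross term behind `y`. -/
theorem far_cross {Cx θ η s : ℝ} (hCx : 0 ≤ Cx) (hθ : -η ≤ θ) (hs : s ≤ 0) :
    Cx * θ * s ≤ Cx * η * -s := by
  have := mul_le_mul_of_nonpos_right (mul_le_mul_of_nonneg_left hθ hCx) hs
  linarith

/-- The half `1 ≤ r` when the excess is covered. -/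
theorem far_lo_sq (p : ℕ) (hp : 2 ≤ p) {r tt Re Rn k S Cx θ η : ℝ} (hr1 : 1 ≤ r) (hS : 0 < S)
    (hRe : -(tt * Rn) ≤ Re) (hk : 0 ≤ k) (hkS : k < 4 * S) (hCx : 0 ≤ Cx)
    (hθ : -η ≤ θ) :
    (Re * ((r ^ p)⁻¹ - 1) + Cx * θ * ((r ^ p)⁻¹ - 1) + k * ((r ^ p)⁻¹ - 1 + p * (r - 1)) -
      4 * S * (r ^ (p + 1) - 1 - ((p : ℝ) + 1) * (r - 1))) * S ≤
        (tt * Rn + Cx * η) ^ 2 / (2 * (4 * S - k)) * S := by
  refine mul_le_mul_of_nonneg_right ?_ hS.le
  have hs : (r ^ p)⁻¹ - 1 ≤ 0 := by linarith [inv_le_one_of_one_le₀ (one_le_pow₀ hr1 (n := p))]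
  have h1 := mul_le_mul_of_nonpos_right hRe hs
  have h2 := far_cross hCx hθ hs
  have h3 := mul_le_mul_of_nonneg_left (excess_le_deficit p hr1) hk
  have h4 := mul_le_mul_of_nonneg_left (pow_excess_ge_of_one_le p hp hr1) (sub_nonneg.2 hkS.le)
  have hd : 0 < 2 * (4 * S - k) := by linarith
  set s := (r ^ p)⁻¹ - 1
  set n := tt * Rn + Cx * η
  have h5 : n * -s - (4 * S - k) * (s ^ 2 / 2) ≤ n ^ 2 / (2 * (4 * S - k)) := by
    rw [le_div_iff₀ hd]
    nlinarith only [sq_nonneg (n + (4 * S - k) * s)]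
  linarith only [h1, h2, h3, h4, h5, hS]

/-- The half `1 ≤ r` in general. -/
theorem far_lo_gen (p : ℕ) {r tt Re Rn k S Cx θ η : ℝ} (hr1 : 1 ≤ r) (hS : 0 < S)
    (hRe : -(tt * Rn) ≤ Re) (hRn : 0 ≤ tt * Rn) (hk : 0 ≤ k) (hCx : 0 ≤ Cx)
    (hθ : -η ≤ θ) (hη : 0 ≤ η) :
    (Re * ((r ^ p)⁻¹ - 1) + Cx * θ * ((r ^ p)⁻¹ - 1) + k * ((r ^ p)⁻¹ - 1 + p * (r - 1)) -
      4 * S * (r ^ (p + 1) - 1 - ((p : ℝ) + 1) * (r - 1))) * S ≤
        k ^ 2 / 8 + (tt * Rn + Cx * η) * S := by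
  have hp0 : (0 : ℝ) ≤ p := Nat.cast_nonneg p
  have hw0 : 0 < (r ^ p)⁻¹ := inv_pos.2 (pow_pos (lt_of_lt_of_le one_pos hr1) p)
  have hs : (r ^ p)⁻¹ - 1 ≤ 0 := by linarith [inv_le_one_of_one_le₀ (one_le_pow₀ hr1 (n := p))]
  have hn : 0 ≤ tt * Rn + Cx * η := by positivity
  have h1 := mul_le_mul_of_nonpos_right hRe hs
  have h2 := far_cross hCx hθ hs
  have h1' : (tt * Rn + Cx * η) * -((r ^ p)⁻¹ - 1) ≤ tt * Rn + Cx * η :=
    mul_le_of_le_one_right hn (by linarith only [hw0])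
  have e1 := pow_ge_quadratic (p + 1) (show 0 ≤ r - 1 by linarith only [hr1])
  rw [add_sub_cancel] at e1
  push_cast at e1
  have e2 : ((p : ℝ) * (r - 1)) ^ 2 / 2 ≤ r ^ (p + 1) - 1 - ((p : ℝ) + 1) * (r - 1) := by
    have := mul_nonneg hp0 (sq_nonneg (r - 1))
    nlinarith only [e1, this]
  have e3 := mul_le_mul_of_nonneg_left e2 (show 0 ≤ 4 * S by positivity)
  have e4 : (k * ((p : ℝ) * (r - 1)) - 2 * S * ((p : ℝ) * (r - 1)) ^ 2) * S ≤ k ^ 2 / 8 := by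
    nlinarith only [sq_nonneg (k - 4 * S * ((p : ℝ) * (r - 1)))]
  have e5 := mul_le_mul_of_nonneg_left
    (show (r ^ p)⁻¹ - 1 + (p : ℝ) * (r - 1) ≤ (p : ℝ) * (r - 1) by linarith only [hs]) hk
  have := mul_le_mul_of_nonneg_right (show Re * ((r ^ p)⁻¹ - 1) + Cx * θ * ((r ^ p)⁻¹ - 1) +
      k * ((r ^ p)⁻¹ - 1 + p * (r - 1)) -
      4 * S * (r ^ (p + 1) - 1 - ((p : ℝ) + 1) * (r - 1)) ≤
      tt * Rn + Cx * η + (k * ((p : ℝ) * (r - 1)) - 2 * S * ((p : ℝ) * (r - 1)) ^ 2) by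
    linarith only [h1, h2, h1', e3, e5]) hS.le
  linarith only [this, e4]

end Vale.Agent.P237.All.Transport.Middle.Low
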