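import Vale.Agent.P237.All.Middle.Low.Check
import Vale.Agent.P237.All.Middle.Low.Reduce
import Vale.Agent.P237.All.Middle.BoxSound

/-!
P237, every dimension, middle regime in dimension `45..130`: the evaluation of a box and the tests of
a side, of the multipliers and of the forms above them mean what they say.
-/

noncomputable section

open Real Set

namespace Vale.Agent.P237.All.Transport.Middle.Low

open Mid (Sg AF U U_pos U_ne)

theorem polyR_div (x : ℝ) : ∀ l : List ℝ, polyR x (l.map fun v => v / 16) = polyR x l / 16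
  | [] => by simp [polyR]
  | n :: l => by
    simp only [List.map_cons, polyR, polyR_div x l]
    ring

theorem polyR_unscale (x : ℝ) : ∀ l : List Sg, polyR x (unscale l) = polyR (x / 16) (l.map rv)
  | [] => rfl
  | n :: l => by
    simp only [unscale, List.map_cons, polyR, polyR_div, polyR_unscale x l]
    ring

/-- The values represent the coefficients. -/
structure Vals2.Has (V : Vals2) (b : RPar2) (S T x u : ℝ) : Prop where
  X : V.V.X.Has S T x
  t : V.V.t.Has S T u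
  τ : V.V.τ.Has S T (u / (1 - 2 * u))
  te : V.V.te.Has S T (b.a.te u)
  S' : V.V.S.Has S T (1 - x * u)
  R : V.R.Has S T (b.R x)
  L : V.L.Has S T (b.L x u)
  C : V.V.C.Has S T (b.a.C x u)
  Q : V.V.Q.Has S T (b.a.Q x u)
  K1 : V.V.K1.Has S T (b.a.K1 x u)
  P0 : V.P0.Has S T (polyR x b.a.p0)
  P1 : V.P1.Has S T (polyR x b.a.p1)

/-- The evaluation represents the coefficients at every point of the box. -/
theorem vals2_sound (c : Cell) (B : Box) (pc pd : Bool) (hB : pieceOk2 c B pc pd = true)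
    (hv : ps ((cN 1).sub (B.afT.add B.afT)) = true) {x u : ℝ} (hx : x ∈ B.X) (hu : u ∈ B.T) :
    ∃ V2 : Vals2, (∀ {α : Type} (k : Vals2 → α), vals2 c B pc pd k = k V2) ∧
      ∃ S T : ℝ, |S| ≤ 1 ∧ |T| ≤ 1 ∧ V2.Has c.real S T x u := by
  simp only [pieceOk2, Bool.and_eq_true] at hB
  obtain ⟨⟨hP, hc⟩, hd⟩ := hB
  obtain ⟨V, hVk, S, T, hS, hT, hV⟩ := vals_sound c.a B hP hv hx hu
  obtain ⟨hkc, hkc'⟩ := has_knot pc hV.X hS hT (piece_sound hc hx)
  obtain ⟨hkd, hkd'⟩ := has_knot pd hV.X hS hT (piece_sound hd hx)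
  have hD := ((has_c c.r4).mul hkc hS hT).add ((has_c c.r5).mul hkd hS hT)
  have hD' := ((has_c c.r4).mul hkc' hS hT).add ((has_c c.r5).mul hkd' hS hT)
  have h1 : (cN 1).Has S T 1 := has_one
  have hR := hV.R.add hD
  have hL := hV.L.add (((has_scale hD' hS hT 2).mul hV.S' hS hT).sub
    ((h1.sub hV.t).mul hD hS hT))
  push_cast at hL
  have hZ : (V.X.scale 1 16).Has S T (x / 16) := by
    have := hV.X.scale hS hT 1 (d := 16) (by norm_num)
    rwa [show x * (((1 : ℕ) : ℝ) / ((16 : ℕ) : ℝ)) = x / 16 by push_cast; ring] at this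
  have h0 := has_poly hZ hS hT c.p0
  have h1' := has_poly hZ hS hT c.p1
  rw [← polyR_unscale] at h0 h1'
  refine ⟨⟨V, _, _, _, _⟩, fun {α} k => ?_, S, T, hS, hT,
    hV.X, hV.t, hV.τ, hV.te, hV.S', hR, hL, hV.C, hV.Q, hV.K1, h0, h1'⟩
  simp only [vals2, AF.force_eq]
  rw [hVk, polyAF_eq, polyAF_eq]

variable {S T : ℝ}

theorem multAF_sound {fe fS : AF} {e Sv : ℝ} {m : ℕ} (hS : |S| ≤ 1) (hT : |T| ≤ 1)
    (he : fe.Has S T e) (hS' : fS.Has S T Sv) (hSv : 0 < Sv) (h : multOk fe fS m = true) :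
    ∃ M, (multAF fe fS m).Has S T M ∧ 0 ≤ M ∧ e ≤ M * Sv := by
  unfold multAF
  cases hc : (nn fe && ps fS)
  · refine ⟨rn m, has_cst m, rn_nonneg m, ?_⟩
    simp only [multOk, hc, Bool.false_or] at h
    have := nn_sound h (((has_cst m).mul hS' hS hT).sub he) hS hT
    linarith only [this]
  · rw [Bool.and_eq_true] at hc
    refine ⟨e * Sv⁻¹, he.mul (hS'.inv hS hT (ps_posPart hc.2)) hS hT,
      mul_nonneg (nn_sound hc.1 he hS hT) (inv_nonneg.2 hSv.le), le_of_eq ?_⟩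
    field_simp

theorem aboveAF_sound {fe : AF} {e : ℝ} {m : ℕ} (hS : |S| ≤ 1) (hT : |T| ≤ 1)
    (he : fe.Has S T e) (h : aboveOk fe m = true) :
    ∃ M, (aboveAF fe m).Has S T M ∧ 0 ≤ M ∧ e ≤ M := by
  unfold aboveAF
  cases hc : nn fe
  · refine ⟨rn m, has_cst m, rn_nonneg m, ?_⟩
    simp only [aboveOk, hc, Bool.false_or] at h
    have := nn_sound h ((has_cst m).sub he) hS hT
    linarith only [this]
  · exact ⟨e, he, nn_sound hc he hS hT, le_rfl⟩

theorem sideOk2_sound (hS : |S| ≤ 1) (hT : |T| ≤ 1) {fR fC fB fS fQ fk fP fx : AF}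
    {R C B Sv Q κ P x1 : ℝ} (hR : fR.Has S T R) (hC : fC.Has S T C) (hB : fB.Has S T B)
    (hS' : fS.Has S T Sv) (hQ : fQ.Has S T Q) (hk : fk.Has S T κ) (hP : fP.Has S T P)
    (hx : fx.Has S T x1) (h : sideOk2 fR fC fB fS fQ fk fP fx = true) :
    0 < Q ∧ B ^ 2 ≤ 4 * Q * Sv * P ∧
      ((0 ≤ sideD C Sv Q κ ∧ sideM R C B Sv Q ≤ 0) ∨
      (0 < sideD C Sv Q κ ∧ Sv * Q * R ^ 2 + C * R * B + κ * B ^ 2 ≤ sideD C Sv Q κ * P) ∨
      ((sideD C Sv Q κ ≤ 0 ∨ sideD C Sv Q κ * x1 ≤ sideM R C B Sv Q ∨ sideM R C B Sv Q ≤ 0) ∧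
        B ^ 2 + 2 * x1 * sideM R C B Sv Q - sideD C Sv Q κ * x1 ^ 2 ≤ 4 * Q * Sv * P)) := by
  simp only [sideOk2, AF.force_eq, Bool.and_eq_true, Bool.or_eq_true] at h
  obtain ⟨⟨h1, h2⟩, h3⟩ := h
  have hB2 := hB.mul hB hS hT
  have hT4 := has_scale ((hQ.mul hS' hS hT).mul hP hS hT) hS hT 4
  have hD0 := (has_scale ((hk.mul hS' hS hT).mul hQ hS hT) hS hT 4).sub (hC.mul hC hS hT)
  have hM0 := (has_scale ((hQ.mul hR hS hT).mul hS' hS hT) hS hT 2).add (hC.mul hB hS hT)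
  obtain ⟨fD, eD, hD⟩ : ∃ f : AF, f = _ ∧ f.Has S T (sideD C Sv Q κ) :=
    ⟨_, rfl, by convert hD0 using 1; simp only [sideD]; push_cast; ring⟩
  obtain ⟨fM, eM, hM⟩ : ∃ f : AF, f = _ ∧ f.Has S T (sideM R C B Sv Q) :=
    ⟨_, rfl, by convert hM0 using 1; simp only [sideM]; push_cast; ring⟩
  subst eD eM
  have a2 := nn_sound h2 (hT4.sub hB2) hS hT
  push_cast at a2
  refine ⟨ps_sound h1 hQ hS hT, by linarith only [a2], ?_⟩
  rcases h3 with (⟨h4, h5⟩ | ⟨h4, h5⟩) | ⟨h4, h5⟩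
  · refine Or.inl ⟨nn_sound h4 hD hS hT, ?_⟩
    linarith only [nn_sound h5 hM.neg hS hT]
  · refine Or.inr (Or.inl ⟨ps_sound h4 hD hS hT, ?_⟩)
    linarith only [nn_sound h5 ((hD.mul hP hS hT).sub (((((hS'.mul hQ hS hT).mul (hR.mul hR hS hT) hS hT)).add
      ((hC.mul hR hS hT).mul hB hS hT)).add (hk.mul hB2 hS hT))) hS hT]
  · refine Or.inr (Or.inr ⟨?_, ?_⟩)
    · rcases h4 with (h4 | h4) | h4
      · exact Or.inl (by linarith only [nn_sound h4 hD.neg hS hT])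
      · exact Or.inr (Or.inl (by linarith only [nn_sound h4 (hM.sub (hD.mul hx hS hT)) hS hT]))
      · exact Or.inr (Or.inr (by linarith only [nn_sound h4 hM.neg hS hT]))
    · have := nn_sound h5 (hT4.sub ((hB2.add (has_scale (hx.mul hM hS hT) hS hT 2)).sub
        (hD.mul (hx.mul hx hS hT) hS hT))) hS hT
      push_cast at this
      linarith only [this]

end Vale.Agent.P237.All.Transport.Middle.Low
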