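import Vale.Agent.P237.All.Middle.Low.Check
import Vale.Agent.P237.All.Middle.Low.ValsSound
import Vale.Agent.P237.All.Middle.Budget

/-!
P237, every dimension, middle regime in dimension `45..130`: the integral of the bound is negative,
for polynomials given in `X / 16`.
-/

noncomputable section

open Real Set

namespace Vale.Agent.P237.All.Transport.Middle.Low

open Mid (Sg AF U)

/-- A polynomial in `X / 16` against the moments, from order `s` on. -/
def momSum16 (t : AF) : List Sg → ℕ → AF
  | [], _ => AF.const ⟨0, 0⟩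
  | n :: l, s => ((AF.const n).mul (momAF t s)).add ((momSum16 t l (s + 1)).scale 1 16)

/-- The test of the budget on an interval of `t` at the end `k`. -/
def budgetOk2 (c : Cell) (sg k tl th : ℕ) : Bool :=
  (AF.force ⟨⟨Nat.div (Nat.add tl th) 2, 0⟩, ⟨0, 0⟩, ⟨Nat.sub th (Nat.div (Nat.add tl th) 2), 0⟩, 0⟩) fun t =>
  momOk t (List.length c.p0) && momOk t (Nat.add (List.length c.p1) 2) &&
  ps ((((AF.const c.a.g).mul (cst k)).scale 2 1).sub ((momSum16 t c.p0 0).add (((cst k).mul (cst sg)).mul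
    (((momSum16 t c.p1 0).sub ((t.scale 2 1).mul (momSum16 t c.p1 1))).add
      ((t.mul t).mul (momSum16 t c.p1 2))))))

variable {S T : ℝ}

theorem momSumR_div (u : ℝ) : ∀ (l : List ℝ) (s : ℕ),
    momSumR u (l.map fun v => v / 16) s = momSumR u l s / 16
  | [], _ => by simp [momSumR]
  | n :: l, s => by
    simp only [List.map_cons, momSumR, momSumR_div u l (s + 1)]
    ring

theorem has_momSum16 (hS : |S| ≤ 1) (hT : |T| ≤ 1) {t : AF} {u : ℝ} (ht : t.Has S T u) :
    ∀ (l : List Sg) (s n : ℕ), momOk t n = true → s + l.length ≤ n →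
      (momSum16 t l s).Has S T (momSumR u (unscale l) s)
  | [], _, _, _, _ => by simpa [momSumR, momSum16, unscale, rv, Sg.v] using has_c (S := S) (T := T) ⟨0, 0⟩
  | a :: l, s, n, h, hl => by
    simp only [List.length_cons] at hl
    have := ((has_c a).mul (has_momAF hS hT ht s (momOk_le h s (by omega))) hS hT).add
      ((has_momSum16 hS hT ht l (s + 1) n h (by omega)).scale hS hT 1 (d := 16) (by norm_num))
    simp only [unscale, momSumR, momSumR_div, momSum16]
    convert this using 1
    push_cast; ring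

theorem budgetOk2_sound {c : Cell} {sg k tl th : ℕ} (h : budgetOk2 c sg k tl th = true) (htl : tl ≤ th)
    {u : ℝ} (h0 : rn tl ≤ u) (h1 : u ≤ rn th) :
    meanPi c.real.a (rn k * rn sg) u < 2 * c.real.a.g * rn k := by
  have ha : (tl + th) / 2 ≤ th := by omega
  obtain ⟨T, hT, eT⟩ := param_mem (c := (tl + th) / 2) (h := th - (tl + th) / 2) (x := u) (by
    have hb : 2 * (((tl + th) / 2 : ℕ) : ℝ) ≤ tl + th := by
      exact_mod_cast (Nat.mul_div_le (tl + th) 2)
    rw [Nat.cast_sub ha]
    constructor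
    · refine le_trans (div_le_div_of_nonneg_right ?_ Mid.U_pos.le) h0
      linarith
    · refine h1.trans (le_of_eq ?_)
      simp [rn])
  have hS : |(0 : ℝ)| ≤ 1 := z0
  have ht : (⟨⟨(tl + th) / 2, 0⟩, ⟨0, 0⟩, ⟨th - (tl + th) / 2, 0⟩, 0⟩ : AF).Has 0 T u := by
    simp [AF.Has, Sg.v, eT]
  simp only [budgetOk2, AF.force_eq, Bool.and_eq_true] at h
  simp only [Nat.add_eq, show ∀ a b, Nat.div a b = a / b from fun _ _ => rfl, Nat.sub_eq] at h
  obtain ⟨⟨m0, m1⟩, h3⟩ := h
  have hsum : ∀ (l : List Sg) (s n : ℕ), momOk _ n = true → s + l.length ≤ n → _ :=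
    has_momSum16 hS hT ht
  have := ps_sound h3 ((has_scale ((has_c c.a.g).mul (has_cst k) hS hT) hS hT 2).sub
    ((hsum c.p0 0 _ m0 (by omega)).add ((((has_cst k).mul (has_cst sg) hS hT)).mul
      ((((hsum c.p1 0 _ m1 (by omega))).sub ((has_scale ht hS hT 2).mul (hsum c.p1 1 _ m1 (by omega))
        hS hT)).add ((ht.mul ht hS hT).mul (hsum c.p1 2 _ m1 (by omega)) hS hT)) hS hT))) hS hT
  push_cast at this
  simp only [meanPi, Cell.real, Par.real]
  linarith

end Vale.Agent.P237.All.Transport.Middle.Low
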