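import Vale.Agent.P237.All.Middle.Low.BoxSound
import Vale.Agent.P237.All.Middle.Low.Budget
import Vale.Agent.P237.All.Middle.CellCert

/-!
P237, every dimension, middle regime in dimension `45..130`: a certificate from a cell whose boxes,
budget and constants pass the tests.
-/

noncomputable section

open Real Set MeasureTheory intervalIntegral

namespace Vale.Agent.P237.All.Transport.Middle.Low

open Mid (Sg AF U U_pos Pt)

/-- The test of a slice: its row, the top and the boxes. -/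
def rowsOk (c : Cell) (w : Row) (top : ℕ) (L : List (ℕ × Piece)) : Bool :=
  rowOk c.K w && Nat.ble 281474976710656 (Nat.mul top w.tl) && sliceOk c w top L 0

/-- The test of the budget on successive intervals of `t`, at both ends of `k`. -/
def budgetsOk (c : Cell) (k0 sg : ℕ) : List ℕ → Bool
  | tl :: th :: l => Nat.ble tl th && budgetOk2 c sg k0 tl th && budgetOk2 c sg c.K tl th &&
      budgetsOk c k0 sg (th :: l)
  | _ => true

theorem budgetsOk_sound {c : Cell} {k0 sg : ℕ} {u : ℝ} : ∀ (a : ℕ) (l : List ℕ) (e : ℕ),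
    budgetsOk c k0 sg (a :: (l ++ [e])) = true → rn a ≤ u → u ≤ rn e →
      meanPi c.real.a (rn k0 * rn sg) u < 2 * c.real.a.g * rn k0 ∧
        meanPi c.real.a (rn c.K * rn sg) u < 2 * c.real.a.g * rn c.K
  | a, [], e, h, h0, h1 => by
    simp only [List.nil_append, budgetsOk, Bool.and_eq_true] at h
    exact ⟨budgetOk2_sound h.1.1.2 (Nat.le_of_ble_eq_true h.1.1.1) h0 h1,
      budgetOk2_sound h.1.2 (Nat.le_of_ble_eq_true h.1.1.1) h0 h1⟩
  | a, b :: l, e, h, h0, h1 => by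
    simp only [List.cons_append, budgetsOk, Bool.and_eq_true] at h
    rcases le_total u (rn b) with hb | hb
    · exact ⟨budgetOk2_sound h.1.1.2 (Nat.le_of_ble_eq_true h.1.1.1) h0 hb,
        budgetOk2_sound h.1.2 (Nat.le_of_ble_eq_true h.1.1.1) h0 hb⟩
    · exact budgetsOk_sound b l e h.2 hb h1

/-- Slices cover an interval of `t`. -/
def Covers (c : Cell) (a b : ℕ) : Prop :=
  ∀ u : ℝ, rn a ≤ u → u ≤ rn b → ∃ w top L, rn w.tl ≤ u ∧ u ≤ rn w.th ∧ rowsOk c w top L = true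

theorem covers_one {c : Cell} {top : ℕ} {w : Row} {L : List (ℕ × Piece)}
    (h : rowsOk c w top L = true) : Covers c w.tl w.th :=
  fun _ h0 h1 => ⟨w, top, L, h0, h1, h⟩

theorem Covers.append {c : Cell} {a b d : ℕ} (h : Covers c a b) (h' : Covers c b d) :
    Covers c a d := fun u h0 h1 => by
  rcases le_total u (rn b) with hb | hb
  · exact h u h0 hb
  · exact h' u hb h1

/-- The constants of a cell are in range, for `k` in `[k0, K]` and `t` at most `t1`. -/
def cstsOk (c : Cell) (k0 sg t1 : ℕ) : Bool :=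
  Nat.ble c.K 285212672 && Nat.ble (Nat.mul c.E0 16777216) (Nat.mul k0 sg) &&
    Nat.ble (Nat.mul c.K sg) (Nat.mul c.E1 16777216) &&
    Nat.ble (Nat.add 9444732965739290427392 (Nat.mul sg (Nat.mul c.K t1)))
      (Nat.mul sg 562949953421312) &&
    Sg.le (Sg.ofN 0) c.a.g && Sg.le c.a.g (Sg.ofN 16777216) &&
    Sg.le (Sg.ofN 0) (c.a.e.add (Sg.ofN 335544320))

/-- The bound of the certificate in the form of the pointwise inequality. -/
theorem middlePi_eq (a : RPar) {p : ℕ} (hp : 1 ≤ p) (c2 E : ℝ) {y : ℝ} (hy : y ∈ Ioo (0 : ℝ) 1) :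
    middlePi a p c2 E y = semi y ^ (p + 1) * (majZero p a.g 1 c2 y + tP p ^ 2 *
      ((polyR (xP p y) a.p0 + E * polyR (xP p y) a.p1 * (1 - y ^ 2) ^ 2) / (1 - y ^ 2))) := by
  have hS : 0 < 1 - y ^ 2 := by nlinarith [hy.1, hy.2]
  rw [middlePi, show p + 1 = p - 1 + 2 by omega, pow_add, semi_sq ⟨by linarith [hy.1], hy.2.le⟩]
  field_simp

/-- The integral of the bound is negative. -/
theorem middlePi_neg (a : RPar) {p : ℕ} (hp : 1 ≤ p) (hg0 : 0 ≤ a.g) {k0 K k sg c2 : ℝ}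
    (hk0 : k0 ≤ k) (hk1 : k ≤ K) (b0 : meanPi a (k0 * sg) (tP p) < 2 * a.g * k0)
    (b1 : meanPi a (K * sg) (tP p) < 2 * a.g * K)
    (hc2 : 2 * k / (((p : ℝ) + 1) * ((p : ℝ) + 2)) ≤ c2 - 1) :
    ∫ y in (0 : ℝ)..1, middlePi a p c2 (k * sg) y < 0 := by
  obtain ⟨q, rfl⟩ : ∃ q, p = q + 1 := ⟨p - 1, by omega⟩
  have hb : meanPi a (k * sg) (tP (q + 1)) < 2 * a.g * k := by
    simp only [meanPi] at b0 b1 ⊢
    set M0 := momSumR (tP (q + 1)) a.p0 0
    set M1 := momSumR (tP (q + 1)) a.p1 0 - 2 * tP (q + 1) * momSumR (tP (q + 1)) a.p1 1 +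
      tP (q + 1) * tP (q + 1) * momSumR (tP (q + 1)) a.p1 2
    rcases le_total (sg * M1) (2 * a.g) with hs | hs
    · nlinarith only [mul_le_mul_of_nonneg_left hk0 (sub_nonneg.2 hs), b0]
    · nlinarith only [mul_le_mul_of_nonneg_left hk1 (sub_nonneg.2 hs), b1]
  rw [middlePi_integral]
  refine mul_neg_of_neg_of_pos ?_ (mass_one_pos isProfile_semi q)
  have h1 := mul_lt_mul_of_pos_left hb (pow_pos (tP_pos (q + 1)) 2)
  have h2 := mul_le_mul_of_nonneg_left hc2 (mul_nonneg hg0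
    (show 0 ≤ ((q : ℝ) + 2) / ((q : ℝ) + 3) by positivity))
  have e : a.g * (((q : ℝ) + 2) / ((q : ℝ) + 3)) *
      (2 * k / ((((q + 1 : ℕ) : ℝ) + 1) * (((q + 1 : ℕ) : ℝ) + 2))) =
      tP (q + 1) ^ 2 * (2 * a.g * k) := by
    simp only [tP]; push_cast; field_simp; ring
  rw [e] at h2
  linarith only [h1, h2]

/-- A certificate from a cell. -/
theorem hasCert_cell {c : Cell} {k0 sg t0 t1 : ℕ} {p : ℕ} (hc : cstsOk c k0 sg t1 = true)
    (hcov : Covers c t0 t1) (bl : List ℕ) (hbud : budgetsOk c k0 sg (t0 :: (bl ++ [t1])) = true) (hp : 29 ≤ p) (ht0 : rn t0 ≤ tP p) (ht1 : tP p ≤ rn t1)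
    (J : ℝ) (hJ0 : exp (rn k0 / ((p : ℝ) + 1)) * (2 * mass (p + 1) semi 1) ≤ J)
    (hJ1 : J ≤ exp (rn c.K / ((p : ℝ) + 1)) * (2 * mass (p + 1) semi 1)) : HasCert p J := by
  simp only [cstsOk, Bool.and_eq_true] at hc
  obtain ⟨⟨⟨⟨⟨⟨cK, cE0⟩, cE1⟩, csg⟩, cg0⟩, cg1⟩, ce⟩ := hc
  set a := c.real.a with ha
  have hg0 : 0 ≤ a.g := by
    have := Sg.le_iff cg0
    rw [Sg.ofN_v, Nat.cast_zero] at this
    exact div_nonneg this U_pos.le
  have hg1 : a.g ≤ 1 := by
    have := Sg.le_iff cg1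
    rw [Sg.ofN_v] at this
    exact (div_le_one U_pos).2 (this.trans (le_of_eq (by norm_num [U])))
  have he : -20 ≤ a.e := by
    have := Sg.le_iff ce
    rw [Sg.add_v, Sg.ofN_v, Sg.ofN_v, Nat.cast_zero] at this
    show -20 ≤ rv c.a.e
    rw [rv, le_div_iff₀ U_pos]
    norm_num [U] at this ⊢
    linarith
  have hP := mass_one_pos isProfile_semi (p + 1)
  have hp' : (29 : ℝ) ≤ p := by exact_mod_cast hp
  set Q := J / (2 * mass (p + 1) semi 1) with hQ
  have hQ0 : exp (rn k0 / ((p : ℝ) + 1)) ≤ Q := by rwa [hQ, le_div_iff₀ (by positivity)]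
  have hQ1 : Q ≤ exp (rn c.K / ((p : ℝ) + 1)) := by rwa [hQ, div_le_iff₀ (by positivity)]
  have hQp : 0 < Q := (exp_pos _).trans_le hQ0
  set k := ((p : ℝ) + 1) * log Q with hk
  have hk0 : rn k0 ≤ k := by
    rw [hk, ← div_le_iff₀' (by positivity)]; exact (Real.le_log_iff_exp_le hQp).2 hQ0
  have hk1 : k ≤ rn c.K := by
    rw [hk, ← le_div_iff₀' (by positivity)]; exact (Real.log_le_iff_le_exp hQp).2 hQ1
  have hK := Nat.le_of_ble_eq_true cK
  have hkn : 0 ≤ k := (rn_nonneg _).trans hk0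
  set E := k * rn sg with hE
  have hsg0 : 0 ≤ rn sg := rn_nonneg _
  have hu := tP_pos p
  have hEI : E ∈ Icc (rn c.E0) (rn c.E1) := by
    have h0 : ((c.E0 * 16777216 : ℕ) : ℝ) ≤ ((k0 * sg : ℕ) : ℝ) :=
      Nat.cast_le.2 (Nat.le_of_ble_eq_true cE0)
    have h1 : ((c.K * sg : ℕ) : ℝ) ≤ ((c.E1 * 16777216 : ℕ) : ℝ) :=
      Nat.cast_le.2 (Nat.le_of_ble_eq_true cE1)
    push_cast at h0 h1
    constructor
    · refine le_trans ?_ (mul_le_mul_of_nonneg_right hk0 hsg0)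
      simp only [rn, U]; norm_num; linarith
    · refine le_trans (mul_le_mul_of_nonneg_right hk1 hsg0) ?_
      simp only [rn, U]; norm_num; linarith
  have hEk : k / (1 - k * tP p / 2) ≤ E := by
    have hd : 1 ≤ rn sg * (1 - rn c.K * rn t1 / 2) := by
      have h0 : ((9444732965739290427392 + sg * (c.K * t1) : ℕ) : ℝ) ≤ ((sg * 562949953421312 : ℕ) : ℝ) :=
        Nat.cast_le.2 (Nat.le_of_ble_eq_true csg)
      push_cast at h0
      simp only [rn, U]; norm_num; linarith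
    have hd' : 1 - rn c.K * rn t1 / 2 ≤ 1 - k * tP p / 2 := by
      linarith [mul_le_mul hk1 ht1 hu.le (rn_nonneg _)]
    have hd0 : 0 < 1 - rn c.K * rn t1 / 2 := pos_of_mul_pos_right (one_pos.trans_le hd) hsg0
    rw [div_le_iff₀ (hd0.trans_le hd'), hE, mul_assoc]
    refine le_mul_of_one_le_right hkn (hd.trans ?_)
    exact mul_le_mul_of_nonneg_left hd' hsg0
  set c2 := (J / ∫ s in (-1 : ℝ)..1, semi s ^ (p + 1)) ^ (2 / ((p : ℝ) + 2)) with hc2
  have hc2' : 2 * k / (((p : ℝ) + 1) * ((p : ℝ) + 2)) ≤ c2 - 1 := by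
    rw [hc2, integral_even isProfile_semi (p + 1), ← hQ, Real.rpow_def_of_pos hQp]
    have e : 2 * k / (((p : ℝ) + 1) * ((p : ℝ) + 2)) = log Q * (2 / ((p : ℝ) + 2)) := by
      rw [hk]; field_simp
    linarith [Real.add_one_le_exp (log Q * (2 / ((p : ℝ) + 2)))]
  have hc20 : 0 ≤ c2 := by
    have : 0 ≤ 2 * k / (((p : ℝ) + 1) * ((p : ℝ) + 2)) := by positivity
    linarith
  have hA : ∀ y, HasDerivAt (potA2 c.real p) (potA2' c.real p y) y := hasDerivAt_potA2 c.real p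
  have hW : ∀ y, HasDerivAt (potW a) (potW' a y) y := hasDerivAt_potW a
  obtain ⟨w, top, L, htl, hth, hrow⟩ := hcov (tP p) ht0 ht1
  simp only [rowsOk, Bool.and_eq_true] at hrow
  obtain ⟨⟨hw, htop⟩, hL⟩ := hrow
  obtain ⟨hb0, hb1⟩ := budgetsOk_sound t0 bl t1 hbud ht0 ht1
  have hPineg : ∫ y in (0 : ℝ)..1, middlePi a p c2 E y < 0 :=
    middlePi_neg a (by omega) hg0 hk0 hk1 hb0 hb1 hc2'
  refine ⟨0, a.g, 1, le_rfl, hg0, zero_le_one, ⟨{
    β := 1
    ell := ellM a p c2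
    ell_nonneg := ell_nonneg ⟨hg0, hg1⟩ he hc20 (by omega)
    V := potF p (potA2 c.real p) (potW a)
    Vy := potFY p (potA2 c.real p) (potA2' c.real p) (potW a) (potW' a)
    Vt := potFT p (potA2 c.real p) (potW a)
    Pi := middlePi a p c2 E
    chain := fun Z Z' t _ hy hZ => potF_chain _ _ _ _ (fun y _ => hA y) (fun y _ => hW y) Z Z' t hy hZ
    along := fun Z hZ h0 hα h1 => potF_along _ _
      (fun y _ => (hA y).continuousAt.continuousWithinAt)
      (fun y _ => (hW y).continuousAt.continuousWithinAt) Z hZ h0 hα h1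
    V_zero := potF_zero _ _
    V_one := potF_one _ _
    Pi_cont := (middlePi_cont a p c2 E).continuousOn
    Pi_neg := hPineg
    point := ?_ }⟩⟩
  intro y hy t ht r lam hr hlam hlp hridge hreach _ hback hcap
  have hpow : lam ^ (p + 1) ≤ exp (k / ((p : ℝ) + 1)) := by
    rw [hk, mul_div_cancel_left₀ _ (by positivity), Real.exp_log hQp, hQ, le_div_iff₀ (by positivity)]
    exact hlp
  have hpt : Pt p k y t r lam := ⟨hy, ht, hr, hlam, hpow, hridge, hback, hcap, hreach⟩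
  have hyp : Hyp c p k y t r lam E := ⟨hp, hkn, hk1, hK, ⟨hg0, hg1⟩, hpt, hEk, hEI⟩
  have h0 : rn 0 ≤ xP p y := by
    have : rn 0 = 0 := by simp [rn]
    rw [this]; unfold xP; positivity
  have htarget : Target c.real p c2 y t r lam E := by
    refine (sliceOk_sound hyp hw htl hth L 0 hL h0).resolve_right fun hx => ?_
    have h1 : ((281474976710656 : ℕ) : ℝ) ≤ ((top * w.tl : ℕ) : ℝ) :=
      Nat.cast_le.2 (Nat.le_of_ble_eq_true htop)
    push_cast at h1
    have h2 : 1 ≤ rn top * rn w.tl := by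
      simp only [rn, U]; norm_num; linarith
    have h3 := mul_le_mul hx htl (rn_nonneg w.tl) ((rn_nonneg top).trans hx)
    rw [xP_mul] at h3
    nlinarith [hy.1, hy.2]
  rw [middlePi_eq a (by omega) c2 E hy, ← hc2, add_assoc]
  exact htarget

end Vale.Agent.P237.All.Transport.Middle.Low
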