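import Vale.Agent.P237.All.Middle.Low.Data1
import Vale.Agent.P237.All.Middle.Low.Data2
import Vale.Agent.P237.All.Middle.Low.Data3
import Vale.Agent.P237.All.Middle.Low.Data4
import Vale.Agent.P237.All.Middle.Low.Data5

/-!
P237, every dimension, middle regime: certificates for `k` in `[5/2, 17]` in dimension `45..128`.
-/

noncomputable section

open Real Set

namespace Vale.Agent.P237.All.Transport.Middle.Low

open Mid (U)

/-- A certificate at every common integral of the middle regime, in dimension `45` to `128`. -/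
theorem hasCert_middle_low (p : ℕ) (hp : 44 ≤ p) (hp' : p ≤ 127) (J : ℝ)
    (lower : exp ((5 / 2) / ((p : ℝ) + 1)) * (2 * mass (p + 1) semi 1) ≤ J)
    (upper : J ≤ exp (17 / ((p : ℝ) + 1)) * (2 * mass (p + 1) semi 1)) : HasCert p J := by
  have hp29 : 29 ≤ p := le_trans (by norm_num) hp
  have ha : (44 : ℝ) ≤ p := by exact_mod_cast hp
  have hb : (p : ℝ) ≤ 127 := by exact_mod_cast hp'
  have h0 : rn 129854 ≤ tP p := (show rn 129854 ≤ (1 / 129 : ℝ) by norm_num [rn, U]).trans
    (one_div_le_one_div_of_le (by positivity) (by linarith))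
  have h1 : tP p ≤ rn 364738 := (one_div_le_one_div_of_le (by norm_num)
    (show (46 : ℝ) ≤ (p : ℝ) + 2 by linarith)).trans (by norm_num [rn, U])
  have l' : exp (rn 41943040 / ((p : ℝ) + 1)) * (2 * mass (p + 1) semi 1) ≤ J :=
    le_trans (le_of_eq (by norm_num [rn, U])) lower
  have u' : J ≤ exp (rn 285212672 / ((p : ℝ) + 1)) * (2 * mass (p + 1) semi 1) :=
    upper.trans (le_of_eq (by norm_num [rn, U]))
  have ov : ∀ {a b : ℕ}, a ≤ b → rn b ≤ tP p → rn a ≤ tP p := fun h h' => (rn_le h).trans h'
  rcases le_total J (exp (rn 55574528 / ((p : ℝ) + 1)) * (2 * mass (p + 1) semi 1)) with j1 | j1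
  · rcases le_total (tP p) (rn 204684) with ta | ta
    · exact hasCert_cell csts1 covers1 [148561, 167269, 185976] budget1 hp29 h0 ta J l' j1
    rcases le_total (tP p) (rn 265082) with tb | tb
    · exact hasCert_cell csts2 covers2 [219782, 234882, 249982] budget2 hp29 (ov (by norm_num : 204682 ≤ 204684) ta) tb J l' j1
    rcases le_total (tP p) (rn 313734) with tc | tc
    · exact hasCert_cell csts3 covers3 [271161, 277243, 283325, 289407, 295488, 301570, 307652] budget3 hp29 (ov (by norm_num : 265080 ≤ 265082) tb) tc J l' j1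
    rcases le_total J (exp (rn 47710208 / ((p : ℝ) + 1)) * (2 * mass (p + 1) semi 1)) with j0 | j0
    · exact hasCert_cell csts4 covers4 [320107, 326483, 332859, 339235, 345610, 351986, 358362] budget4 hp29 (ov (by norm_num : 313732 ≤ 313734) tc) h1 J l' j0
    · exact hasCert_cell csts5 covers5 [326483, 339235, 351986] budget5 hp29 (ov (by norm_num : 313732 ≤ 313734) tc) h1 J j0 j1
  rcases le_total J (exp (rn 77594624 / ((p : ℝ) + 1)) * (2 * mass (p + 1) semi 1)) with j2 | j2
  · rcases le_total (tP p) (rn 218104) with ta | ta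
    · exact hasCert_cell csts6 covers6 [151916, 173979, 196041] budget6 hp29 h0 ta J j1 j2
    rcases le_total (tP p) (rn 298636) with tb | tb
    · exact hasCert_cell csts7 covers7 [238235, 258369, 278502] budget7 hp29 (ov (by norm_num : 218102 ≤ 218104) ta) tb J j1 j2
    · exact hasCert_cell csts8 covers8 [306897, 315160, 323423, 331686, 339949, 348212, 356475] budget8 hp29 (ov (by norm_num : 298634 ≤ 298636) tb) h1 J j1 j2
  rcases le_total J (exp (rn 159383552 / ((p : ℝ) + 1)) * (2 * mass (p + 1) semi 1)) with j3 | j3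
  · rcases le_total (tP p) (rn 209716) with ta | ta
    · exact hasCert_cell csts9 covers9 [149819, 169785, 189750] budget9 hp29 h0 ta J j2 j3
    rcases le_total (tP p) (rn 278502) with tb | tb
    · exact hasCert_cell csts10 covers10 [226911, 244108, 261305] budget10 hp29 (ov (by norm_num : 209714 ≤ 209716) ta) tb J j2 j3
    rcases le_total (tP p) (rn 325478) with tc | tc
    · exact hasCert_cell csts11 covers11 [290244, 301989, 313733] budget11 hp29 (ov (by norm_num : 278500 ≤ 278502) tb) tc J j2 j3
    rcases le_total J (exp (rn 109051904 / ((p : ℝ) + 1)) * (2 * mass (p + 1) semi 1)) with j0 | j0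
    · exact hasCert_cell csts12 covers12 [335291, 345107, 354922] budget12 hp29 (ov (by norm_num : 325476 ≤ 325478) tc) h1 J j2 j0
    · exact hasCert_cell csts13 covers13 [335291, 345107, 354922] budget13 hp29 (ov (by norm_num : 325476 ≤ 325478) tc) h1 J j0 j3
  rcases le_total (tP p) (rn 218104) with ta | ta
  · exact hasCert_cell csts14 covers14 [151916, 173979, 196041] budget14 hp29 h0 ta J j3 u'
  rcases le_total (tP p) (rn 298636) with tb | tb
  · exact hasCert_cell csts15 covers15 [238235, 258369, 278502] budget15 hp29 (ov (by norm_num : 218102 ≤ 218104) ta) tb J j3 u'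
  · exact hasCert_cell csts16 covers16 [315160, 331686, 348212] budget16 hp29 (ov (by norm_num : 298634 ≤ 298636) tb) h1 J j3 u'

end Vale.Agent.P237.All.Transport.Middle.Low
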