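import Vale.Agent.P237.All.Middle.Pot

/-!
P237, every dimension, middle regime in dimension `45..130`: the potential with two further knots.
-/

noncomputable section

open Real Set

namespace Vale.Agent.P237.All.Transport.Middle.Low

/-- The constants of a cell with two further knots. -/
structure RPar2 where
  a : RPar
  r4 : ℝ
  r5 : ℝ
  kc : ℝ
  kd : ℝ

variable (b : RPar2)

/-- The further part of the spline. -/
def RPar2.D (X : ℝ) : ℝ := b.r4 * knot b.kc X + b.r5 * knot b.kd X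

/-- Its derivative. -/
def RPar2.D' (X : ℝ) : ℝ := b.r4 * knot' b.kc X + b.r5 * knot' b.kd X

/-- The coefficient of `s`, over `t`. -/
def RPar2.R (X : ℝ) : ℝ := b.a.R X + b.D X

/-- The coefficient of `θ`, over `X t / (y (1 - y ^ 2))`. -/
def RPar2.L (X t : ℝ) : ℝ := b.a.L X t + (2 * b.D' X * (1 - X * t) - (1 - t) * b.D X)

/-- The potential coefficient of `θ`. -/
def potA2 (p : ℕ) (y : ℝ) : ℝ := potA b.a p y + tP p * b.D (xP p y)

/-- Its derivative. -/
def potA2' (p : ℕ) (y : ℝ) : ℝ := potA' b.a p y + 2 * y * b.D' (xP p y)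

theorem hasDerivAt_potA2 (p : ℕ) (y : ℝ) : HasDerivAt (potA2 b p) (potA2' b p y) y := by
  have hX : HasDerivAt (xP p) (2 * ((p : ℝ) + 2) * y) y :=
    ((hasDerivAt_pow 2 y).const_mul ((p : ℝ) + 2)).congr_deriv (by simp; ring)
  have hD : HasDerivAt b.D (b.D' (xP p y)) (xP p y) :=
    ((hasDerivAt_knot b.kc _).const_mul b.r4).add ((hasDerivAt_knot b.kd _).const_mul b.r5)
  refine ((hasDerivAt_potA b.a p y).add ((hD.comp y hX).const_mul (tP p))).congr_deriv ?_
  simp only [potA2', tP]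
  field_simp

variable {b} {p : ℕ} {y c2 : ℝ}

theorem maj_re2 (hp : 1 ≤ p) :
    majRe p b.a.g 1 1 (ellM b.a p c2) c2 (potA2 b p y) y = tP p * b.R (xP p y) := by
  have h := maj_re (a := b.a) (y := y) (c2 := c2) hp
  simp only [majRe, RPar2.R, potA2] at h ⊢
  linarith

theorem maj_le2 (hy : y ∈ Ioo (0 : ℝ) 1) :
    majLe p b.a.g 1 1 (potA2' b p y - ((p : ℝ) + 1) * y / (1 - y ^ 2) * potA2 b p y) y * y * (1 - y ^ 2) =
      xP p y * tP p * b.L (xP p y) (tP p) := by
  have hS : 1 - y ^ 2 ≠ 0 := by nlinarith [hy.1, hy.2]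
  have h := maj_le (a := b.a) (p := p) hy
  simp only [majLe] at h ⊢
  have hm : ((p : ℝ) + 1) * tP p = 1 - tP p := by simp only [tP]; field_simp; ring
  have hx := xP_mul p y
  have e : (potA2' b p y - ((p : ℝ) + 1) * y / (1 - y ^ 2) * potA2 b p y + majLt p b.a.g 1 1 y) *
      y * (1 - y ^ 2) =
      (potA' b.a p y - ((p : ℝ) + 1) * y / (1 - y ^ 2) * potA b.a p y + majLt p b.a.g 1 1 y) *
        y * (1 - y ^ 2) + y ^ 2 * (2 * b.D' (xP p y) * (1 - y ^ 2) -
          ((p : ℝ) + 1) * tP p * b.D (xP p y)) := by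
    simp only [potA2, potA2']
    field_simp
    ring
  rw [e, h, hm]
  simp only [RPar2.L]
  linear_combination (-(2 * b.D' (xP p y) * (1 - y ^ 2) - (1 - tP p) * b.D (xP p y)) + 2 * b.D' (xP p y) * xP p y * tP p) * hx

end Vale.Agent.P237.All.Transport.Middle.Low
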