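import Vale.Agent.P237.All.Middle.Check
import Vale.Agent.P237.All.Middle.CapSound
import Vale.Agent.P237.All.Middle.Low.Pot

/-!
P237, every dimension, middle regime in dimension `45..130`: the test of one box of
`X = (p + 2) y ^ 2`, `t = 1 / (p + 2)`, written for evaluation by the kernel.
-/

noncomputable section

namespace Vale.Agent.P237.All.Transport.Middle.Low

open Mid (Sg AF U)

/-- The constants of a cell, the top of `k`, and the range of `E`; `p0` and `p1` are polynomials in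
`X / 16`. -/
structure Cell where
  a : Par
  p0 : List Sg
  p1 : List Sg
  r4 : Sg
  r5 : Sg
  kc : Sg
  kd : Sg
  K : ℕ
  E0 : ℕ
  E1 : ℕ

/-- The coefficients in `X` of a polynomial in `X / 16`. -/
def unscale : List Sg → List ℝ
  | [] => []
  | n :: l => rv n :: (unscale l).map fun v => v / 16

/-- The constants over the reals. -/
def Cell.real (c : Cell) : RPar2 where
  a := { c.a.real with p0 := unscale c.p0, p1 := unscale c.p1 }
  r4 := rv c.r4
  r5 := rv c.r5
  kc := rv c.kc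
  kd := rv c.kd

/-- An interval of `t`, with `exp zl ≤ lam` and `exp zA ≤ eA`. -/
structure Row where
  tl : ℕ
  th : ℕ
  zl : ℕ
  lam : ℕ
  zA : ℕ
  eA : ℕ

/-- A cap: from the point itself, from a point below, or from `Reach`. -/
inductive Cap
  | self (x1 z e Cn l0 : ℕ)
  | shift (xu x1 z e sy Cn l0 : ℕ)
  | reach (x0 x1 Cn l0 wd sy : ℕ)

/-- The multipliers of a box. -/
inductive Piece
  | bulk (W : ℕ) (c : Cap) (M G x1 : ℕ)
  | tail (W : ℕ) (c : Cap) (Kb l gm G x1 : ℕ)
  | farW (x0 x1 Cn l0 wd sm wf kk rp rn : ℕ)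
  | farC (W : ℕ) (c : Cap) (kk kn wf rp rn : ℕ)
  | skip

/-- `x + (x + 17/4) / (x² + 11/3 x + 133/25)` from above. -/
def mills2Up (x : ℕ) : AF :=
  (cst x).add (((cst x).add (cst 71303168)).mul
    ((((cst x).mul (cst x)).add ((cst 61516458).mul (cst x))).add (cst 89254789)).inv)

/-- The denominator of `mills2Up` is positive. -/
def mills2UpOk (x : ℕ) : Bool :=
  ps ((((cst x).mul (cst x)).add ((cst 61516458).mul (cst x))).add (cst 89254789))

/-- `x + (x + 17/4) / (x² + 11/3 x + 133/25)` from below. -/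
def mills2Dn (x : ℕ) : AF :=
  (cst x).add (((cst x).add (cst 71303168)).mul
    ((((cst x).mul (cst x)).add ((cst 61516459).mul (cst x))).add (cst 89254790)).inv)

/-- The denominator of `mills2Dn` is positive. -/
def mills2DnOk (x : ℕ) : Bool :=
  ps ((((cst x).mul (cst x)).add ((cst 61516459).mul (cst x))).add (cst 89254790))

/-- The denominator of the lower bound on the tail of the band. -/
def lowDen (x : ℕ) : AF := (((cst x).mul (cst x)).add ((cst 52512687).mul (cst x))).add (cst 67444409)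

/-- `millsLow` at `xu` from below. -/
def lowDn (xu th : ℕ) : AF :=
  (cst xu).add (((cN 1).sub (((cst xu).mul (cst xu)).mul (cst th))).mul
    (((cst xu).add (cst 52512686)).mul (lowDen xu).inv))

/-- The excess of `lam ^ p` over one. -/
def enUp (K th : ℕ) : AF :=
  ((cst K).mul (cst th)).mul ((cN 1).sub (((cst K).mul (cst th)).mul cHalf)).inv

/-- The mass, scaled, from above. -/
def mass2 (th : ℕ) : AF :=
  (cst 21027221).mul ((cN 1).sub ((epsUp th).mul (cst 4194304))).inv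

/-- The constants of a row are valid. -/
def rowOk (K : ℕ) (w : Row) : Bool :=
  Nat.ble w.tl w.th && ps ((cN 1).sub (cst w.th)) &&
  ps ((cN 1).sub (((cst K).mul (cst w.th)).mul cHalf)) &&
  nn ((cst w.zl).sub ((cst K).mul ((epsUp w.th).mul (epsUp w.th)))) && expOk w.zl w.lam &&
  nn (((cst w.zA).add (cst w.tl)).sub cHalf) && expOk w.zA w.eA &&
  ps ((cN 1).sub ((epsUp w.th).mul (cst 4194304)))

/-- A test of `w semi y ≤ wd` from `Reach`, with `x0 ≤ x ≤ x1`. -/
def reachOk (w : Row) (x0 x1 Cn l0 wd : ℕ) : Bool :=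
  (((cst x0).mul (cst x0)).mul cHalf).force fun e => (e.mul e).force fun e2 =>
  ((((cN 1).add e).add (e2.mul cHalf)).add ((e2.mul e).mul (cst 2796202)) |>.add
    ((e2.mul e2).mul (cst 699050))).force fun pe =>
  ((pe.mul (mass2 w.th)).mul (mills2Dn x0)).force fun den =>
  ((cN 1).sub den.inv).force fun z =>
  (((cN 1).sub ((cst w.th).scale 2 1)).mul
    (z.add (((z.mul z).mul (cst w.tl)).mul cHalf))).force fun b =>
  (b.mul b).force fun b2 =>
  ((((cN 1).add b).add (b2.mul cHalf)).add ((b2.mul b).mul (cst 2796202)) |>.add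
    ((b2.mul b2).mul (cst 699050))).force fun pb =>
  mills2UpOk x1 && mills2DnOk x0 && ps den && nn z && nn b &&
  nn ((cst Cn).sub ((mass2 w.th).mul (mills2Up x1))) && nn ((cst Cn).sub (cN 1)) && expOk l0 Cn &&
  nn ((((cst wd).mul pb).mul ((cN 1).add ((cst w.tl).mul (cst l0)))).sub ((cst w.eA).mul (cst Cn)))

/-- A test that a cap on `r ^ -(p + 1)` gives `w ≤ W`. -/
def powOk (tl W Cn l0 : ℕ) : Bool :=
  expOk l0 Cn && nn (((cst W).mul ((cN 1).add ((cst tl).mul (cst l0)))).sub (cst Cn))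

/-- A test that `w ≤ W` on the box. -/
def capOk (K : ℕ) (w : Row) (xl xh W : ℕ) : Cap → Bool
  | .self x1 z e Cn l0 =>
    ((cN 1).sub ((cst xh).mul (cst w.th))).force fun d =>
    nn (((cst x1).mul (cst x1)).sub (cst xh)) && ps d &&
    nn ((((cst z).scale 2 1).mul d).sub (cst xh)) && expOk z e && mills2UpOk x1 &&
    nn ((cst Cn).sub ((cst w.lam).mul ((cN 1).add
      ((((enUp K w.th).mul (mass2 w.th)).mul (mills2Up x1)).mul (cst e))))) && powOk w.tl W Cn l0
  | .shift xu x1 z e sy Cn l0 =>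
    ((cst xu).mul (cst xu)).force fun Xu => ((cN 1).sub (Xu.mul (cst w.th))).force fun d =>
    (lowDn xu w.th).force fun low =>
    nn (((cst x1).mul (cst x1)).sub (cst xh)) && ps d && ps (cst xu) && ps (lowDen xu) && ps low &&
    nn ((cst xl).sub Xu) && nn ((((cst z).scale 2 1).mul d).sub Xu) && expOk z e && mills2UpOk x1 &&
    nn ((((cst sy).mul (cst sy)).mul ((cN 1).sub (((cst x1).mul (cst x1)).mul (cst w.th)))).sub (cN 1)) &&
    nn ((cst Cn).sub ((((cst w.lam).mul (mills2Up x1)).mul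
      ((((enUp K w.th).mul (mass2 w.th)).mul (cst e)).add
        (((cN 1).sub ((Xu.mul (cst w.tl)).mul cHalf)).mul low.inv))).mul (cst sy))) &&
    powOk w.tl W Cn l0
  | .reach x0 x1 Cn l0 wd sy =>
    nn (((cst x1).mul (cst x1)).sub (cst xh)) && nn ((cst xl).sub ((cst x0).mul (cst x0))) &&
    reachOk w x0 x1 Cn l0 wd &&
    nn ((((cst sy).mul (cst sy)).mul ((cN 1).sub (((cst x1).mul (cst x1)).mul (cst w.th)))).sub (cN 1)) &&
    nn ((cst W).sub ((cst wd).mul (cst sy)))

/-- A test of the gain of the band on the box. -/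
def gainOk (w : Row) (xh G x1 : ℕ) : Bool :=
  nn (((cst x1).mul (cst x1)).sub (cst xh)) && nn ((cst G).sub (cN 1)) && ps (cst x1) &&
  ps (lowDen x1) && ps ((cN 1).sub ((cst xh).mul (cst w.th))) &&
  nn ((((cN 1).sub ((cst xh).mul (cst w.th))).mul ((cst x1).add (cst 52512686))).sub
    (((cst G).sub (cN 1)).mul ((cst x1).mul (lowDen x1))))

/-- The coefficients on a box. -/
structure Vals2 where
  V : Vals
  R : AF
  L : AF
  P0 : AF
  P1 : AF

/-- The test that the box lies on the pieces it claims. -/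
def pieceOk2 (c : Cell) (B : Box) (pc pd : Bool) : Bool :=
  pieceOk c.a B &&
  (bif pc then Sg.le (c.kc.add (Sg.ofN B.xh)) (Sg.ofN B.xc)
    else Sg.le ((Sg.ofN B.xc).add (Sg.ofN B.xh)) c.kc) &&
  (bif pd then Sg.le (c.kd.add (Sg.ofN B.xh)) (Sg.ofN B.xc)
    else Sg.le ((Sg.ofN B.xc).add (Sg.ofN B.xh)) c.kd)

/-- The evaluation. -/
def vals2 {α : Type} (c : Cell) (B : Box) (pc pd : Bool) (k : Vals2 → α) : α :=
  vals c.a B fun V =>
  (knotAF pc c.kc V.X).1.force fun kc => (knotAF pc c.kc V.X).2.force fun kc' =>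
  (knotAF pd c.kd V.X).1.force fun kd => (knotAF pd c.kd V.X).2.force fun kd' =>
  (((AF.const c.r4).mul kc).add ((AF.const c.r5).mul kd)).force fun D =>
  (((AF.const c.r4).mul kc').add ((AF.const c.r5).mul kd')).force fun D' =>
  (V.R.add D).force fun R =>
  (V.L.add (((D'.scale 2 1).mul V.S).sub (((cN 1).sub V.t).mul D))).force fun L =>
  (V.X.scale 1 16).force fun Z =>
  polyAF Z c.p0 fun P0 => polyAF Z c.p1 fun P1 =>
  k ⟨V, R, L, P0, P1⟩

/-- A quotient by `S`, exact when the numerator is nonnegative. -/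
def multAF (ex S : AF) (m : ℕ) : AF := bif nn ex && ps S then ex.mul S.inv else cst m

/-- The test of `multAF`. -/
def multOk (ex S : AF) (m : ℕ) : Bool := (nn ex && ps S) || nn (((cst m).mul S).sub ex)

/-- A form, or a constant above it. -/
def aboveAF (f : AF) (m : ℕ) : AF := bif nn f then f else cst m

/-- The test of `aboveAF`. -/
def aboveOk (f : AF) (m : ℕ) : Bool := nn f || nn ((cst m).sub f)

/-- A test of one side on a range of `σ`. -/
def sideOk2 (R C B S Q k P x1 : AF) : Bool :=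
  (((k.mul S).mul Q).scale 4 1 |>.sub (C.mul C)).force fun D =>
  ((((Q.mul R).mul S).scale 2 1).add (C.mul B)).force fun M => (B.mul B).force fun B2 =>
  (((Q.mul S).mul P).scale 4 1).force fun T =>
  ps Q && nn (T.sub B2) &&
  ((nn D && nn M.neg') ||
    (ps D && nn ((D.mul P).sub
      ((((S.mul Q).mul (R.mul R)).add ((C.mul R).mul B)).add (k.mul B2)))) ||
    ((nn D.neg' || nn (M.sub (D.mul x1)) || nn M.neg') &&
      nn (T.sub ((B2.add ((x1.mul M).scale 2 1)).sub (D.mul (x1.mul x1))))))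

/-- The coefficient of the excess in the bulk. -/
def bulkKh (W : ℕ) (τ M : AF) : AF :=
  (((cN 4).add (τ.mul ((cst W).inv.scale 4 1))).sub
    (M.mul (((cst W).mul ((cst W).add (cN 1)).inv).add (τ.mul cHalf)))).mul (cst W).inv

/-- The coefficient of the deficit in the bulk. -/
def bulkKl (τ M : AF) : AF :=
  ((cN 4).add (τ.scale 4 1)).sub (M.mul (cHalf.add (τ.mul cHalf)))

/-- The test of a box in the bulk. -/
def bulkOk2 (E1 W m G : ℕ) (V2 : Vals2) : Bool :=
  V2.V.t.inv.force fun ti =>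
  (V2.V.X.mul (V2.L.add ((V2.V.S.mul (cst G)).mul V2.P1))).force fun B =>
  (((V2.V.S.scale 4 1).add V2.V.K1).sub (thetaAF V2.V E1)).force fun ex =>
  (multAF ex V2.V.S m).force fun M =>
  (bulkKh W V2.V.τ M).force fun kh => (bulkKl V2.V.τ M).force fun kl =>
  nn V2.V.te.neg' && nn V2.P1 && ps V2.V.t && ps (cst W) && ps ((cst W).add (cN 1)) &&
  nn ((cst W).sub (cN 1)) && multOk ex V2.V.S m && nn kh && nn kl &&
  sideOk2 V2.R V2.V.C B V2.V.S V2.V.Q kh V2.P0 ((V2.V.S.mul ((cst W).sub (cN 1))).mul ti) &&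
  sideOk2 V2.R.neg' V2.V.C.neg' B V2.V.S (V2.V.Q.add ((V2.V.X.mul V2.V.t).scale 4 1)) kl
    V2.P0 (V2.V.S.mul ti)

/-- The coefficient of the excess in the tail. -/
def tailKT (W : ℕ) (τ Kb : AF) : AF :=
  (((cst W).add (cN 1)).inv.scale 4 1).sub
    (Kb.mul (((cst W).mul ((cst W).add (cN 1)).inv).add (τ.mul cHalf)))

/-- The test of a box in the tail. -/
def tailOk2 (E0 E1 W m l gm G : ℕ) (V2 : Vals2) : Bool :=
  (((cst W).add (cN 1)).mul cHalf).force fun ρ => (V2.R.mul ρ).force fun R1 =>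
  ((cst l).mul V2.V.t).force fun lt =>
  (V2.V.X.mul V2.V.t).force fun Xt => (V2.V.C.sub ((cst gm).mul Xt)).force fun cc =>
  ((V2.V.Q.mul V2.V.S).sub
    ((V2.V.X.mul ((cHalf.sub V2.V.t).add lt)).mul (V2.V.t.mul R1))).force fun Y =>
  (((R1.sub (V2.L.mul (cst G).inv)).mul V2.V.S).sub
    (V2.P1.mul (V2.V.S.mul V2.V.S))).force fun b =>
  (V2.V.K1.sub (thetaAF V2.V E1)).force fun ex => (multAF ex V2.V.S m).force fun Kb =>
  (((V2.V.C.mul V2.V.S).mul V2.V.X.inv).mul (cst G).inv).force fun cf =>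
  ((cf.mul cf).mul (((cN 4).sub Kb).scale 2 1).inv).force fun cf2 =>
  (tailKT W V2.V.τ Kb).force fun kT =>
  nn V2.V.te.neg' && nn V2.R && ps V2.V.X && ps (cst G) && nn ((cst W).sub (cN 1)) && logOk W l &&
  ps ((cst W).add (cN 1)) && ps (((cN 4).sub Kb).scale 2 1) && multOk ex V2.V.S m && nn kT &&
  nn ((V2.L.add (R1.mul (((cN 1).sub (V2.V.t.add V2.V.t)).add (lt.add lt)))).add
    (((cst gm).mul ((cst W).sub (cN 1))).mul V2.V.S)).neg' &&
  nn cc && nn Y && nn (((kT.mul Y).scale 4 1).sub ((cc.mul cc).mul (cst W))) &&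
  nn (V2.P0.sub ((b.mul (cst E0)).add (cf2.mul ((cst E0).mul (cst E0))))) &&
  nn (V2.P0.sub ((b.mul (cst E1)).add (cf2.mul ((cst E1).mul (cst E1)))))

/-- What both halves need far from zero, with the excess weight `k` and the half `r ≤ 1` below `Hs`. -/
def farBase (E0 E1 wf rp rn : ℕ) (k Hs : AF) (V2 : Vals2) : Bool :=
  V2.V.t.inv.force fun ti =>
  (((V2.L.mul V2.V.S).neg').sub (V2.P1.mul (V2.V.S.mul V2.V.S))).force fun b =>
  ((V2.V.C.mul V2.V.S).mul V2.V.X.inv).force fun cc =>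
  ((((cN 4).mul V2.V.S).sub k).scale 2 1).force fun den =>
  ((cst rn).add (cc.mul (cst E0))).force fun n0 => ((cst rn).add (cc.mul (cst E1))).force fun n1 =>
  nn V2.V.te.neg' && ps V2.V.X && ps V2.V.t && nn V2.V.C && nn V2.V.Q &&
  nn (((V2.V.X.mul V2.V.t).mul V2.L).add (V2.V.C.mul (cst wf))).neg' &&
  nn ((cst rp).sub V2.R) && nn ((cst rn).add V2.R) &&
  nn (V2.P0.sub (Hs.add (b.mul (cst E0)))) && nn (V2.P0.sub (Hs.add (b.mul (cst E1)))) &&
  ((ps den &&
    nn (V2.P0.sub (((n0.mul n0).mul (V2.V.S.mul den.inv)).add (b.mul (cst E0)))) &&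
    nn (V2.P0.sub (((n1.mul n1).mul (V2.V.S.mul den.inv)).add (b.mul (cst E1))))) ||
   (nn (V2.P0.sub ((((((k.mul k).mul (cst 2097152)).mul ti).mul ti).add
      ((n0.mul V2.V.S).mul ti)).add (b.mul (cst E0)))) &&
    nn (V2.P0.sub ((((((k.mul k).mul (cst 2097152)).mul ti).mul ti).add
      ((n1.mul V2.V.S).mul ti)).add (b.mul (cst E1))))))

/-- The test of a box far from zero, through the bound on `w semi y`. -/
def farWOk (E0 E1 wf kk rp rn : ℕ) (V2 : Vals2) : Bool :=
  V2.V.t.inv.force fun ti =>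
  (V2.V.K1.sub (thetaAF V2.V E1)).force fun ex => (aboveAF ex kk).force fun k =>
  ((((((V2.V.t.mul (cst rp)).add k).mul (cst wf))).mul ti).mul ti).force fun Hs =>
  aboveOk ex kk && farBase E0 E1 wf rp rn k Hs V2

/-- The test of a box far from zero, through the cap on `w`. -/
def farCOk (E0 E1 W kk kn wf rp rn : ℕ) (V2 : Vals2) : Bool :=
  V2.V.t.inv.force fun ti => ((cst W).sub (cN 1)).force fun W1 =>
  (V2.V.K1.sub (thetaAF V2.V E1)).force fun ex => (aboveAF ex kk).force fun k =>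
  ((k.mul (((cst W).mul ((cst W).add (cN 1)).inv).add (V2.V.τ.mul cHalf))).sub
    ((V2.V.S.scale 4 1).mul ((cst W).add (cN 1)).inv)).force fun need =>
  ((((((V2.V.t.mul (cst rp)).mul W1).add
    ((aboveAF need kn).mul ((W1.mul W1).mul (cst W).inv))).mul V2.V.S).mul ti).mul ti).force fun Hs =>
  ps (cst W) && nn W1 && ps ((cst W).add (cN 1)) && aboveOk ex kk && aboveOk need kn &&
  nn ((cst wf).sub (W1.mul V2.V.S)) && farBase E0 E1 wf rp rn k Hs V2

/-- The evaluation of a box followed by a test. -/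
def withVals2 (c : Cell) (w : Row) (xl xh : ℕ) (k : Vals2 → Bool) : Bool :=
  pieceOk2 c (mkBox c.a xl xh w.tl w.th) (Nat.ble c.kc.pos xl) (Nat.ble c.kd.pos xl) &&
  ps ((cN 1).sub ((mkBox c.a xl xh w.tl w.th).afT.add (mkBox c.a xl xh w.tl w.th).afT)) &&
  vals2 c (mkBox c.a xl xh w.tl w.th) (Nat.ble c.kc.pos xl) (Nat.ble c.kd.pos xl) k

/-- The test of one box. -/
def boxOk (c : Cell) (w : Row) (xl xh : ℕ) : Piece → Bool
  | .bulk W cp M G x1 =>
    capOk c.K w xl xh W cp && gainOk w xh G x1 && withVals2 c w xl xh (bulkOk2 c.E1 W M G)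
  | .tail W cp Kb l gm G x1 =>
    capOk c.K w xl xh W cp && gainOk w xh G x1 &&
      withVals2 c w xl xh (tailOk2 c.E0 c.E1 W Kb l gm G)
  | .farW x0 x1 Cn l0 wd sm wf kk rp rn =>
    nn (((cst x1).mul (cst x1)).sub (cst xh)) && nn ((cst xl).sub ((cst x0).mul (cst x0))) &&
    reachOk w x0 x1 Cn l0 wd &&
    nn (((cst sm).mul (cst sm)).sub ((cN 1).sub ((cst xl).mul (cst w.tl)))) &&
    nn ((cst wf).sub ((cst wd).mul (cst sm))) &&
    withVals2 c w xl xh (farWOk c.E0 c.E1 wf kk rp rn)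
  | .farC W cp kk kn wf rp rn =>
    capOk c.K w xl xh W cp && withVals2 c w xl xh (farCOk c.E0 c.E1 W kk kn wf rp rn)
  | .skip => nn (((cst xl).mul (cst w.tl)).sub (cN 1))

/-- The test of a slice in `t`: the boxes chain from `lo` to `top`. -/
def sliceOk (c : Cell) (w : Row) (top : ℕ) : List (ℕ × Piece) → ℕ → Bool
  | [], lo => Nat.ble top lo
  | (hi, pc) :: l, lo => Nat.ble lo hi && boxOk c w lo hi pc && sliceOk c w top l hi

end Vale.Agent.P237.All.Transport.Middle.Low
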